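import Vale.Agent.P002R.YOrbStmt

/-!
# Representations with virtually solvable image: definitions
-/

namespace Vale.Agent.P002.H326J

open Matrix Vale.Agent.P002R.Orb

variable {ι : Type} {r : ℕ}

/-- The group generated by the matrices `X p` is virtually solvable: it has a solvable subgroup of
finite index. -/
def IsVirtSolvable (X : ι → SpecialLinearGroup (Fin r) ℂ) : Prop :=
  ∃ A : Subgroup (SpecialLinearGroup (Fin r) ℂ), A ≤ Subgroup.closure (Set.range X) ∧
    Group.IsSolvable A ∧ A.relIndex (Subgroup.closure (Set.range X)) ≠ 0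

/-- The points of `M_r(ℂ)`, for the group with generators `ι` and relations `R`, with prescribed
classes `C j` of the elements `w j`. -/
def YW (R : Set (FreeGroup ι)) {s : ℕ} (w : Fin s → FreeGroup ι)
    (C : Fin s → SpecialLinearGroup (Fin r) ℂ) : Set (ι → SpecialLinearGroup (Fin r) ℂ) :=
  {X ∈ YNone R r | ∀ j, IsConj (C j) (FreeGroup.lift X (w j))}

/-- The points of `YW` whose monodromy group is virtually solvable. -/
def YV (R : Set (FreeGroup ι)) {s : ℕ} (w : Fin s → FreeGroup ι)
    (C : Fin s → SpecialLinearGroup (Fin r) ℂ) : Set (ι → SpecialLinearGroup (Fin r) ℂ) :=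
  {X ∈ YW R w C | IsVirtSolvable X}

end Vale.Agent.P002.H326J
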