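import Mathlib

/-!
# Jordan's theorem on finite linear groups: auxiliary estimates
-/

namespace Vale.Agent.P002.H326J

open Module

/-- packing bound -/
theorem pack (d : ℕ) : ∃ N : ℕ, ∀ (V : Type) [NormedAddCommGroup V] [InnerProductSpace ℂ V]
    [FiniteDimensional ℂ V], finrank ℂ V = d → ∀ (ι : Type) (f : ι → V →L[ℂ] V),
      (∀ i, ‖f i‖ ≤ 1) → (∀ i j, i ≠ j → 1 / 4 < ‖f i - f j‖) → Finite ι ∧ Nat.card ι ≤ N := by
  have hc : IsCompact (Metric.closedBall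
      (0 : EuclideanSpace ℂ (Fin d) →L[ℂ] EuclideanSpace ℂ (Fin d)) 1) :=
    isCompact_closedBall _ _
  obtain ⟨t, ht, hcov⟩ := Metric.totallyBounded_iff.1 hc.totallyBounded (1 / 8) (by norm_num)
  refine ⟨t.ncard, fun V _ _ _ hV ι f hf hsep => ?_⟩
  subst hV
  let e : V ≃ₗᵢ[ℂ] EuclideanSpace ℂ (Fin (finrank ℂ V)) := (stdOrthonormalBasis ℂ V).repr
  let E1 : V →L[ℂ] EuclideanSpace ℂ (Fin (finrank ℂ V)) := e.toContinuousLinearEquiv
  let E2 : EuclideanSpace ℂ (Fin (finrank ℂ V)) →L[ℂ] V := e.symm.toContinuousLinearEquiv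
  have hE1 : ‖E1‖ ≤ 1 := ContinuousLinearMap.opNorm_le_bound _ zero_le_one fun x => by
    simp [E1]
  have hE2 : ‖E2‖ ≤ 1 := ContinuousLinearMap.opNorm_le_bound _ zero_le_one fun x => by
    simp [E2]
  have key : ∀ i, ∃ c ∈ t, dist (E1 ∘L f i ∘L E2) c < 1 / 8 := fun i => by
    have h1 : (E1 ∘L f i ∘L E2) ∈ Metric.closedBall
        (0 : EuclideanSpace ℂ (Fin (finrank ℂ V)) →L[ℂ] EuclideanSpace ℂ (Fin (finrank ℂ V))) 1 := by
      rw [mem_closedBall_zero_iff]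
      calc ‖E1 ∘L f i ∘L E2‖ ≤ ‖E1‖ * (‖f i‖ * ‖E2‖) :=
            (ContinuousLinearMap.opNorm_comp_le _ _).trans
              (mul_le_mul_of_nonneg_left (ContinuousLinearMap.opNorm_comp_le _ _) (norm_nonneg _))
        _ ≤ 1 * (1 * 1) := by
            gcongr
            exact hf i
        _ = 1 := by norm_num
    have h2 := hcov h1
    simp only [Set.mem_iUnion, Metric.mem_ball] at h2
    obtain ⟨c, hc1, hc2⟩ := h2
    exact ⟨c, hc1, hc2⟩
  choose c hc1 hc2 using key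
  have hinj : Function.Injective (fun i => (⟨c i, ht.mem_toFinset.2 (hc1 i)⟩ : ht.toFinset)) := by
    intro i j hij
    by_contra hne
    have h0 : c i = c j := by simpa using congrArg Subtype.val hij
    have h1 : dist (E1 ∘L f i ∘L E2) (E1 ∘L f j ∘L E2) < 1 / 4 := by
      have := dist_triangle_right (E1 ∘L f i ∘L E2) (E1 ∘L f j ∘L E2) (c i)
      have h3 := hc2 j
      rw [← h0] at h3
      linarith [hc2 i]
    have h2 : f i - f j = E2 ∘L (E1 ∘L f i ∘L E2 - E1 ∘L f j ∘L E2) ∘L E1 := by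
      ext x
      simp [E1, E2]
    have h3 : ‖f i - f j‖ ≤ ‖E1 ∘L f i ∘L E2 - E1 ∘L f j ∘L E2‖ := by
      rw [h2]
      calc _ ≤ ‖E2‖ * (‖E1 ∘L f i ∘L E2 - E1 ∘L f j ∘L E2‖ * ‖E1‖) :=
            (ContinuousLinearMap.opNorm_comp_le _ _).trans
              (mul_le_mul_of_nonneg_left (ContinuousLinearMap.opNorm_comp_le _ _) (norm_nonneg _))
        _ ≤ 1 * (‖E1 ∘L f i ∘L E2 - E1 ∘L f j ∘L E2‖ * 1) := by gcongr
        _ = _ := by ring
    rw [dist_eq_norm] at h1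
    linarith [hsep i j hne]
  refine ⟨Finite.of_injective _ hinj, ?_⟩
  have := Nat.card_le_card_of_injective _ hinj
  simpa using this

section est

variable {V : Type} [NormedAddCommGroup V] [InnerProductSpace ℂ V] [FiniteDimensional ℂ V]

/-- the trace of an operator near the identity does not vanish -/
theorem trace_ne_zero (hV : 0 < finrank ℂ V) (T : V →L[ℂ] V) (hT : ‖T - 1‖ < 1) :
    LinearMap.trace ℂ V (T : V →ₗ[ℂ] V) ≠ 0 := by
  intro h0
  let b := stdOrthonormalBasis ℂ V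
  have h1 : LinearMap.trace ℂ V ((T - 1 : V →L[ℂ] V) : V →ₗ[ℂ] V) = -(finrank ℂ V : ℂ) := by
    have : ((T - 1 : V →L[ℂ] V) : V →ₗ[ℂ] V) = (T : V →ₗ[ℂ] V) - 1 := rfl
    rw [this, map_sub, h0, LinearMap.trace_one, zero_sub]
  have h2 : ‖LinearMap.trace ℂ V ((T - 1 : V →L[ℂ] V) : V →ₗ[ℂ] V)‖ ≤
      finrank ℂ V * ‖T - 1‖ := by
    rw [LinearMap.trace_eq_sum_inner _ b]
    refine (norm_sum_le _ _).trans ?_
    calc ∑ i, ‖inner ℂ (b i) (((T - 1 : V →L[ℂ] V) : V →ₗ[ℂ] V) (b i))‖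
        ≤ ∑ i : Fin (finrank ℂ V), ‖T - 1‖ := by
          refine Finset.sum_le_sum fun i _ => ?_
          refine (norm_inner_le_norm _ _).trans ?_
          rw [b.norm_eq_one, one_mul]
          have := (T - 1).le_opNorm (b i)
          rwa [b.norm_eq_one, mul_one] at this
      _ = finrank ℂ V * ‖T - 1‖ := by simp
  rw [h1, norm_neg, Complex.norm_natCast] at h2
  have h3 : (0 : ℝ) < finrank ℂ V := by exact_mod_cast hV
  nlinarith

/-- commutator estimate -/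
theorem comm_le (S T : V →L[ℂ] V) : ‖S * T - T * S‖ ≤ 2 * (‖S - 1‖ * ‖T - 1‖) := by
  have h : S * T - T * S = (S - 1) * (T - 1) - (T - 1) * (S - 1) := by noncomm_ring
  rw [h]
  refine (norm_sub_le _ _).trans ?_
  have h1 := norm_mul_le (S - 1) (T - 1)
  have h2 := norm_mul_le (T - 1) (S - 1)
  nlinarith

end est

end Vale.Agent.P002.H326J
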