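import Vale.Agent.P002.H326J.J6
import Vale.Agent.P002R.YOrbStmt

/-!
# Classes of finite order, and the polynomials that separate them
-/

namespace Vale.Agent.P002.H326J

open Module Matrix Polynomial Vale.Agent.P002.H306 Vale.Agent.P002R.Orb

/-- the inclusion of `SL_r` into the matrices -/
def slHom (r : ℕ) : SpecialLinearGroup (Fin r) ℂ →* Matrix (Fin r) (Fin r) ℂ where
  toFun A := A.1
  map_one' := rfl
  map_mul' _ _ := rfl

theorem slHom_apply {r : ℕ} (A : SpecialLinearGroup (Fin r) ℂ) : slHom r A = A.1 := rfl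

/-- elements of finite order are diagonalizable -/
theorem diag_of_pow {r N : ℕ} (hN : 0 < N) {A : SpecialLinearGroup (Fin r) ℂ} (hA : A ^ N = 1) :
    ∃ P Q : Matrix (Fin r) (Fin r) ℂ, P * Q = 1 ∧ Q * P = 1 ∧ ∃ d : Fin r → ℂ,
      (∀ i, d i ^ N = 1) ∧ Q * A.1 * P = diagonal d := by
  have hf : Module.End.IsSemisimple (mulVecLin A.1) := by
    refine Module.End.isSemisimple_of_squarefree_aeval_eq_zero (p := X ^ N - 1) ?_ ?_
    · have h1 : (X ^ N - Polynomial.C (1 : ℂ)).Separable :=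
        separable_X_pow_sub_C (1 : ℂ) (by exact_mod_cast hN.ne') one_ne_zero
      rw [Polynomial.C_1] at h1
      exact h1.squarefree
    · rw [map_sub, map_pow, aeval_X, map_one, sub_eq_zero]
      have h1 : ∀ m : ℕ, (mulVecLin A.1 : Module.End ℂ (Fin r → ℂ)) ^ m = mulVecLin (A ^ m).1 := by
        intro m
        induction m with
        | zero => rw [pow_zero, pow_zero]; exact (mulVecLin_one).symm
        | succ m ih =>
          rw [pow_succ, ih, pow_succ, Module.End.mul_eq_comp, ← mulVecLin_mul]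
          rfl
      rw [h1, hA]
      exact mulVecLin_one
  have hfo : IsOfFinOrder A := isOfFinOrder_iff_pow_eq_one.2 ⟨N, hN, hA⟩
  let ρ : Subgroup.zpowers A →* Matrix (Fin r) (Fin r) ℂ := (slHom r).comp (Subgroup.subtype _)
  have hρ : Ssi ρ := by
    intro W hW
    obtain ⟨W', hW', hc⟩ := (Module.End.isSemisimple_iff.1 hf) W (by
      intro v hv
      exact hW ⟨A, Subgroup.mem_zpowers A⟩ v hv)
    refine ⟨W', ?_, hc⟩
    rintro ⟨g, hg⟩ v hv
    obtain ⟨m, rfl⟩ := (hfo.mem_powers_iff_mem_zpowers).2 hg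
    have h1 : ∀ m : ℕ, (A ^ m).1 *ᵥ v ∈ W' := by
      intro m
      induction m with
      | zero =>
        rw [pow_zero]
        change (1 : Matrix (Fin r) (Fin r) ℂ) *ᵥ v ∈ W'
        rwa [one_mulVec]
      | succ m ih =>
        rw [pow_succ']
        change (A.1 * (A ^ m).1) *ᵥ v ∈ W'
        rw [← mulVec_mulVec]
        exact hW' ih
    exact h1 m
  obtain ⟨P, Q, hPQ, hQP, hd⟩ := exists_diag ρ hρ ⊤ (by
    rintro ⟨_, k, rfl⟩ _ ⟨_, m, rfl⟩ _
    change slHom r (A ^ k) * slHom r (A ^ m) = slHom r (A ^ m) * slHom r (A ^ k)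
    rw [← map_mul, ← map_mul, ← _root_.zpow_add, ← _root_.zpow_add, add_comm])
  obtain ⟨d, hd⟩ := hd ⟨A, Subgroup.mem_zpowers A⟩ trivial
  have hd' : Q * A.1 * P = diagonal d := hd
  refine ⟨P, Q, hPQ, hQP, d, fun i => ?_, hd'⟩
  have h1 : ∀ m : ℕ, Q * (A ^ m).1 * P = diagonal (fun i => d i ^ m) := by
    intro m
    induction m with
    | zero =>
      rw [pow_zero]
      change Q * 1 * P = _
      rw [mul_one, hQP]
      simp
    | succ m ih =>
      rw [pow_succ]
      change Q * ((A ^ m).1 * A.1) * P = _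
      calc Q * ((A ^ m).1 * A.1) * P = Q * (A ^ m).1 * 1 * A.1 * P := by
            simp only [Matrix.mul_assoc, Matrix.one_mul]
        _ = (Q * (A ^ m).1 * P) * (Q * A.1 * P) := by
            rw [← hPQ]
            simp only [Matrix.mul_assoc]
        _ = _ := by
            rw [ih, hd', diagonal_mul_diagonal]
            simp only [pow_succ]
  have h2 := h1 N
  rw [hA] at h2
  change Q * 1 * P = _ at h2
  rw [mul_one, hQP] at h2
  have h3 := congrFun (congrFun h2 i) i
  simpa using h3.symm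

theorem charpoly_conj {r : ℕ} {A D P Q : Matrix (Fin r) (Fin r) ℂ} (hPQ : P * Q = 1)
    (hQP : Q * P = 1) (h : Q * A * P = D) : A.charpoly = D.charpoly := by
  rw [← h, Matrix.charpoly_mul_comm, ← Matrix.mul_assoc, hPQ, Matrix.one_mul]

theorem exists_perm {r : ℕ} (d d' : Fin r → ℂ)
    (h : ∏ i, (X - Polynomial.C (d i)) = ∏ i, (X - Polynomial.C (d' i))) :
    ∃ σ : Equiv.Perm (Fin r), ∀ i, d' (σ i) = d i := by
  classical
  have h1 : ∀ e : Fin r → ℂ, (∏ i, (X - Polynomial.C (e i))).roots = Finset.univ.val.map e := fun e => by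
    have := Polynomial.roots_multiset_prod_X_sub_C (Finset.univ.val.map e)
    rw [Multiset.map_map] at this
    exact this
  have h2 : Finset.univ.val.map d = Finset.univ.val.map d' := by rw [← h1, ← h1, h]
  have h3 : ∀ z : ℂ, Nonempty ({i // d i = z} ≃ {i // d' i = z}) := fun z => by
    refine ⟨Fintype.equivOfCardEq ?_⟩
    have h4 := congrArg (Multiset.count z) h2
    rw [Multiset.count_map, Multiset.count_map] at h4
    rw [Fintype.card_subtype, Fintype.card_subtype]
    simp only [Finset.card, Finset.filter_val]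
    convert h4 using 3
    · exact eq_comm
    · exact eq_comm
  refine ⟨Equiv.ofFiberEquiv (fun z => (h3 z).some), fun i => ?_⟩
  exact Equiv.ofFiberEquiv_map _ i

/-- elements of finite order with the same characteristic polynomial are conjugate -/
theorem conj_of_charpoly {r N : ℕ} (hN : 0 < N) {A B : SpecialLinearGroup (Fin r) ℂ}
    (hA : A ^ N = 1) (hB : B ^ N = 1) (h : A.1.charpoly = B.1.charpoly) : IsConj A B := by
  obtain ⟨P, Q, hPQ, hQP, d, -, hd⟩ := diag_of_pow hN hA
  obtain ⟨P', Q', hPQ', hQP', d', -, hd'⟩ := diag_of_pow hN hB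
  rw [charpoly_conj hPQ hQP hd, charpoly_conj hPQ' hQP' hd', charpoly_diagonal,
    charpoly_diagonal] at h
  obtain ⟨σ, hσ⟩ := exists_perm d d' h
  rcases Nat.eq_zero_or_pos r with hr | hr
  · subst hr
    have : A = B := by
      ext i
      exact i.elim0
    rw [this]
  -- the conjugating matrix
  let Pm : Matrix (Fin r) (Fin r) ℂ := σ.symm.toPEquiv.toMatrix
  let Pm' : Matrix (Fin r) (Fin r) ℂ := σ.toPEquiv.toMatrix
  have hPm : Pm * Pm' = 1 := by
    change σ.symm.toPEquiv.toMatrix * σ.toPEquiv.toMatrix = 1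
    rw [← PEquiv.toMatrix_trans, ← Equiv.toPEquiv_trans]
    simp
  have hPm' : Pm' * Pm = 1 := by
    change σ.toPEquiv.toMatrix * σ.symm.toPEquiv.toMatrix = 1
    rw [← PEquiv.toMatrix_trans, ← Equiv.toPEquiv_trans]
    simp
  have hconj : Pm * diagonal d = diagonal d' * Pm := by
    ext i j
    rw [mul_diagonal, diagonal_mul]
    change σ.symm.toPEquiv.toMatrix i j * d j = d' i * σ.symm.toPEquiv.toMatrix i j
    rw [PEquiv.toMatrix_apply]
    by_cases hij : j = σ.symm i
    · subst hij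
      rw [← hσ]
      simp
    · have : j ∉ σ.symm.toPEquiv i := by
        simp [Equiv.toPEquiv_apply, eq_comm, hij]
      rw [if_neg this, zero_mul, mul_zero]
  let g : Matrix (Fin r) (Fin r) ℂ := P' * Pm * Q
  let g' : Matrix (Fin r) (Fin r) ℂ := P * Pm' * Q'
  have hgg' : g * g' = 1 := by
    calc P' * Pm * Q * (P * Pm' * Q') = P' * Pm * (Q * P) * Pm' * Q' := by
          simp only [Matrix.mul_assoc]
      _ = P' * (Pm * Pm') * Q' := by rw [hQP]; simp only [Matrix.mul_assoc, Matrix.one_mul]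
      _ = 1 := by rw [hPm, mul_one, hPQ']
  have hg : g * A.1 = B.1 * g := by
    have e1 : A.1 = P * diagonal d * Q := by
      rw [← hd]
      calc A.1 = 1 * A.1 * 1 := by rw [Matrix.one_mul, Matrix.mul_one]
        _ = (P * Q) * A.1 * (P * Q) := by rw [hPQ]
        _ = _ := by simp only [Matrix.mul_assoc]
    have e2 : B.1 = P' * diagonal d' * Q' := by
      rw [← hd']
      calc B.1 = 1 * B.1 * 1 := by rw [Matrix.one_mul, Matrix.mul_one]
        _ = (P' * Q') * B.1 * (P' * Q') := by rw [hPQ']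
        _ = _ := by simp only [Matrix.mul_assoc]
    calc P' * Pm * Q * A.1 = P' * Pm * (Q * P) * diagonal d * Q := by
          rw [e1]; simp only [Matrix.mul_assoc]
      _ = P' * (Pm * diagonal d) * Q := by
          rw [hQP]; simp only [Matrix.mul_assoc, Matrix.one_mul]
      _ = P' * diagonal d' * (Q' * P') * Pm * Q := by
          rw [hconj, hQP']; simp only [Matrix.mul_assoc, Matrix.one_mul]
      _ = B.1 * (P' * Pm * Q) := by rw [e2]; simp only [Matrix.mul_assoc]
  have hdet : g.det ≠ 0 := by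
    intro h0
    have := congrArg Matrix.det hgg'
    rw [det_mul, h0, zero_mul, det_one] at this
    exact zero_ne_one this
  obtain ⟨c, hc⟩ := IsAlgClosed.exists_pow_nat_eq (g.det⁻¹) hr
  have hG : (c • g).det = 1 := by
    rw [det_smul, Fintype.card_fin, hc, inv_mul_cancel₀ hdet]
  have hcg : (c • g) * A.1 = B.1 * (c • g) := by rw [smul_mul_assoc, hg, mul_smul_comm]
  obtain ⟨G, hG'⟩ : ∃ G : SpecialLinearGroup (Fin r) ℂ, G.1 = c • g := ⟨⟨c • g, hG⟩, rfl⟩
  have hGA : G * A = B * G := by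
    refine Subtype.ext ?_
    change G.1 * A.1 = B.1 * G.1
    rw [hG', hcg]
  exact isConj_iff.2 ⟨G, by rw [hGA, mul_inv_cancel_right]⟩

/-- evaluation of polynomials in the entries of the generators -/
noncomputable def evX {ι : Type} {r : ℕ} (X : ι → SpecialLinearGroup (Fin r) ℂ) :
    MvPolynomial (ι × Fin r × Fin r) ℂ →+* ℂ :=
  MvPolynomial.eval₂Hom (algebraMap ℂ ℂ) (fun p => (X p.1).1 p.2.1 p.2.2)

theorem value_eq {ι : Type} {r : ℕ} (X : ι → SpecialLinearGroup (Fin r) ℂ)
    (F : MvPolynomial (ι × Fin r × Fin r) ℂ) : value F X = evX X F := rfl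

/-- the matrix of a word -/
theorem exists_word {ι : Type} (r : ℕ) (w : FreeGroup ι) :
    ∃ M : Matrix (Fin r) (Fin r) (MvPolynomial (ι × Fin r × Fin r) ℂ),
      ∀ X : ι → SpecialLinearGroup (Fin r) ℂ, M.map (evX X) = (FreeGroup.lift X w).1 := by
  induction w using FreeGroup.induction_on with
  | C1 =>
    refine ⟨1, fun X => ?_⟩
    rw [map_one, Matrix.map_one _ (map_zero _) (map_one _)]
    rfl
  | of p =>
    refine ⟨Matrix.of fun i j => MvPolynomial.X (p, i, j), fun X => ?_⟩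
    rw [FreeGroup.lift_apply_of]
    ext i j
    simp [evX]
  | inv_of p ih =>
    obtain ⟨M, hM⟩ := ih
    refine ⟨M.adjugate, fun X => ?_⟩
    have h1 : (FreeGroup.lift X (FreeGroup.of p)⁻¹).1 =
        (FreeGroup.lift X (FreeGroup.of p)).1.adjugate := by
      rw [map_inv]
      rfl
    rw [h1, ← hM]
    exact ((evX X).map_adjugate M)
  | mul v w hv hw =>
    obtain ⟨M, hM⟩ := hv
    obtain ⟨M', hM'⟩ := hw
    refine ⟨M * M', fun X => ?_⟩
    rw [Matrix.map_mul, hM, hM', map_mul]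
    rfl

theorem finite_charpoly (r : ℕ) {N : ℕ} (hN : 0 < N) :
    {f : ℂ[X] | ∃ A : SpecialLinearGroup (Fin r) ℂ, A ^ N = 1 ∧ f = A.1.charpoly}.Finite := by
  have h1 : {z : ℂ | z ^ N = 1}.Finite := by
    refine (Multiset.finite_toSet (Polynomial.nthRoots N (1 : ℂ))).subset fun z hz => ?_
    exact (Polynomial.mem_nthRoots hN).2 hz
  refine ((Set.Finite.pi' (fun _ : Fin r => h1)).image
    (fun d => (diagonal d).charpoly)).subset ?_
  rintro f ⟨A, hA, rfl⟩
  obtain ⟨P, Q, hPQ, hQP, d, hd, hd'⟩ := diag_of_pow hN hA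
  exact ⟨d, hd, (charpoly_conj hPQ hQP hd').symm⟩

theorem charpoly_isConj {r : ℕ} {A B : SpecialLinearGroup (Fin r) ℂ} (h : IsConj A B) :
    B.1.charpoly = A.1.charpoly := by
  obtain ⟨U, hU⟩ := isConj_iff.1 h
  have h1 : B.1 = U.1 * A.1 * (U⁻¹).1 := (congrArg Subtype.val hU).symm
  have h2 : (U⁻¹).1 * U.1 = 1 := congrArg Subtype.val (inv_mul_cancel U)
  rw [h1, Matrix.charpoly_mul_comm, ← Matrix.mul_assoc, h2, Matrix.one_mul]

/-- a polynomial in the entries of the generators which does not vanish if `X(w)` is conjugate to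
`C`, and vanishes if `X(w) ^ N = 1` and `X(w)` is not conjugate to `C` -/
theorem exists_sep {ι : Type} {r : ℕ} (w : FreeGroup ι) (C₀ : SpecialLinearGroup (Fin r) ℂ) {N : ℕ}
    (hN : 0 < N) (hC : C₀ ^ N = 1) :
    ∃ F : MvPolynomial (ι × Fin r × Fin r) ℂ, ∀ X : ι → SpecialLinearGroup (Fin r) ℂ,
      (IsConj C₀ (FreeGroup.lift X w) → value F X ≠ 0) ∧
      (FreeGroup.lift X w ^ N = 1 → ¬ IsConj C₀ (FreeGroup.lift X w) → value F X = 0) := by
  classical
  obtain ⟨M, hM⟩ := exists_word r w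
  have hne : ∀ f : ℂ[X], ∃ k : ℕ, f ≠ C₀.1.charpoly → C₀.1.charpoly.coeff k ≠ f.coeff k := by
    intro f
    by_cases hf : f = C₀.1.charpoly
    · exact ⟨0, fun h => absurd hf h⟩
    · by_contra hcon
      push Not at hcon
      exact hf (Polynomial.ext fun k => (hcon k).2.symm)
  choose k hk using hne
  obtain ⟨T, hT⟩ : ∃ T : Finset ℂ[X], ∀ f, f ∈ T ↔ f ≠ C₀.1.charpoly ∧
      ∃ A : SpecialLinearGroup (Fin r) ℂ, A ^ N = 1 ∧ f = A.1.charpoly :=
    ⟨(finite_charpoly r hN).toFinset.erase C₀.1.charpoly, fun f => by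
      rw [Finset.mem_erase, Set.Finite.mem_toFinset]
      rfl⟩
  refine ⟨∏ f ∈ T, (M.charpoly.coeff (k f) - MvPolynomial.C (f.coeff (k f))), fun X => ?_⟩
  have hval : value (∏ f ∈ T, (M.charpoly.coeff (k f) - MvPolynomial.C (f.coeff (k f)))) X =
      ∏ f ∈ T, ((FreeGroup.lift X w).1.charpoly.coeff (k f) - f.coeff (k f)) := by
    rw [value_eq, map_prod]
    refine Finset.prod_congr rfl fun f _ => ?_
    rw [map_sub, ← hM X, Matrix.charpoly_map, Polynomial.coeff_map]
    congr 1
    simp [evX]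
  rw [hval]
  constructor
  · intro hc
    have h1 : (FreeGroup.lift X w).1.charpoly = C₀.1.charpoly := charpoly_isConj hc
    rw [h1, Finset.prod_ne_zero_iff]
    intro f hf
    exact sub_ne_zero.2 (hk f ((hT f).1 hf).1)
  · intro hpow hnc
    have h1 : (FreeGroup.lift X w).1.charpoly ≠ C₀.1.charpoly := fun h =>
      hnc (conj_of_charpoly hN hC hpow h.symm)
    exact Finset.prod_eq_zero ((hT _).2 ⟨h1, _, hpow, rfl⟩) (sub_self _)

end Vale.Agent.P002.H326J
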