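import Vale.Agent.P002.H326J.J8

/-!
# Semisimple virtually solvable linear groups are virtually abelian
-/

namespace Vale.Agent.P002.H326J

open Module Matrix Vale.Agent.P002.H306

variable {Γ : Type*} [Group Γ] {r : ℕ}

/-- common eigenvectors of virtually solvable groups -/
theorem exists_common (ρ : Γ →* Matrix (Fin r) (Fin r) ℂ) (H0 : Subgroup Γ) (n : ℕ)
    (hsol : ∀ g ∈ derivedSeries H0 n, ρ (g : Γ) = 1) (m : ℕ) : ∀ H : Subgroup Γ, H ≤ H0 →
    H.FiniteIndex → ∀ W : Submodule ℂ (Fin r → ℂ), W ≠ ⊥ → (∀ g ∈ H, ∀ v ∈ W, ρ g *ᵥ v ∈ W) →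
    finrank ℂ W ≤ m → ∃ H' : Subgroup Γ, H'.FiniteIndex ∧ ∃ v ∈ W, v ≠ 0 ∧
      ∀ g ∈ H', ∃ c : ℂ, ρ g *ᵥ v = c • v := by
  induction m with
  | zero =>
    intro H _ _ W hW _ hm
    have : 0 < finrank ℂ W := Submodule.one_le_finrank_iff.2 hW
    omega
  | succ m ih =>
    intro H hH hfi W hW hinv hm
    by_cases hs : ∃ S : Subgroup Γ, S ≤ H ∧ S.FiniteIndex ∧ ∃ W1 : Submodule ℂ (Fin r → ℂ),
        W1 ≠ ⊥ ∧ W1 < W ∧ ∀ g ∈ S, ∀ v ∈ W1, ρ g *ᵥ v ∈ W1
    · obtain ⟨S, hS, hSfi, W1, hW1, hlt, hinv1⟩ := hs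
      obtain ⟨H', hH', v, hv, hv0, hv'⟩ := ih S (hS.trans hH) hSfi W1 hW1 hinv1 (by
        have := Submodule.finrank_lt_finrank_of_lt hlt
        omega)
      exact ⟨H', hH', v, hlt.le hv, hv0, hv'⟩
    · let ρW : H →* Module.End ℂ W :=
        { toFun := fun h => (mulVecLin (ρ h)).restrict (fun v hv => hinv h h.2 v hv)
          map_one' := by
            ext v : 2
            change ρ ((1 : H) : Γ) *ᵥ v.1 = v.1
            rw [Subgroup.coe_one, map_one, one_mulVec]
          map_mul' := fun g h => by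
            ext v : 2
            change ρ ((g * h : H) : Γ) *ᵥ v.1 = ρ g *ᵥ (ρ h *ᵥ v.1)
            rw [Subgroup.coe_mul, map_mul, mulVec_mulVec] }
      have hρW : ∀ (h : H) (w : W), ((ρW h w : W) : Fin r → ℂ) = ρ h *ᵥ w.1 := fun _ _ => rfl
      let b := Module.finBasis ℂ W
      let σ : H →* Matrix (Fin (finrank ℂ W)) (Fin (finrank ℂ W)) ℂ :=
        ((LinearMap.toMatrixAlgEquiv b : _ →* _) : Module.End ℂ W →* _).comp ρW
      have hσ : ∀ h, σ h = LinearMap.toMatrix b b (ρW h) := fun _ => rfl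
      have hσv : ∀ h w, σ h *ᵥ b.equivFun w = b.equivFun (ρW h w) := by
        intro h w
        rw [hσ]
        exact LinearMap.toMatrix_mulVec_repr b b (ρW h) w
      have hSI : SIrr σ := by
        intro S hS W1 hW1
        let W1' : Submodule ℂ (Fin r → ℂ) := (W1.comap b.equivFun.toLinearMap).map W.subtype
        have hm1 : ∀ w : W, (w : Fin r → ℂ) ∈ W1' ↔ b.equivFun w ∈ W1 := by
          intro w
          constructor
          · rintro ⟨w', hw', h⟩
            have : w' = w := Subtype.ext h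
            rw [← this]
            exact hw'
          · intro h
            exact ⟨w, h, rfl⟩
        have hle : W1' ≤ W := by
          rintro _ ⟨w, -, rfl⟩
          exact w.2
        have hfi' : (S.map H.subtype).FiniteIndex := by
          refine ⟨?_⟩
          rw [Subgroup.index_map_subtype]
          exact mul_ne_zero hS.index_ne_zero hfi.index_ne_zero
        have h1 : W1' = ⊥ ∨ W1' = W := by
          by_contra hcon
          push Not at hcon
          refine hs ⟨S.map H.subtype, Subgroup.map_subtype_le _, hfi', W1', hcon.1,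
            lt_of_le_of_ne hle hcon.2, ?_⟩
          rintro _ ⟨g, hg, rfl⟩ _ ⟨w, hw, rfl⟩
          have h2 : (ρW g w : Fin r → ℂ) ∈ W1' := by
            rw [hm1, ← hσv]
            exact hW1 g hg _ hw
          exact h2
        rcases h1 with h1 | h1
        · left
          rw [Submodule.eq_bot_iff]
          intro v hv
          have h2 : ((b.equivFun.symm v : W) : Fin r → ℂ) ∈ W1' := by
            rw [hm1, LinearEquiv.apply_symm_apply]
            exact hv
          rw [h1, Submodule.mem_bot] at h2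
          have h3 : b.equivFun.symm v = 0 := Subtype.ext h2
          exact (LinearEquiv.map_eq_zero_iff b.equivFun.symm).1 h3
        · right
          rw [Submodule.eq_top_iff']
          intro v
          have h2 : ((b.equivFun.symm v : W) : Fin r → ℂ) ∈ W1' := by
            rw [h1]
            exact (b.equivFun.symm v).2
          rw [hm1, LinearEquiv.apply_symm_apply] at h2
          exact h2
      have hscal := scalar_of_solvable hSI n (fun g hg => ⟨1, by
        rw [one_smul]
        have h1 : Subgroup.inclusion hH g ∈ derivedSeries H0 n :=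
          map_derivedSeries_le_derivedSeries (Subgroup.inclusion hH) n ⟨g, hg, rfl⟩
        have h2 : ρ (g : Γ) = 1 := hsol _ h1
        have h3 : ρW g = 1 := by
          ext w : 2
          change ρ (g : Γ) *ᵥ w.1 = w.1
          rw [h2, one_mulVec]
        rw [hσ, h3]
        exact LinearMap.toMatrix_one b⟩)
      obtain ⟨v, hv, hv0⟩ := (Submodule.ne_bot_iff W).1 hW
      refine ⟨H, hfi, v, hv, hv0, fun g hg => ?_⟩
      obtain ⟨c, hc⟩ := hscal ⟨g, hg⟩
      refine ⟨c, ?_⟩
      have h1 := hσv ⟨g, hg⟩ ⟨v, hv⟩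
      rw [hc, smul_mulVec, one_mulVec, ← map_smul] at h1
      have h2 := b.equivFun.injective h1
      exact (congrArg Subtype.val h2).symm

/-- the span of the common eigenvectors -/
def EE (ρ : Γ →* Matrix (Fin r) (Fin r) ℂ) (K : Subgroup Γ) : Submodule ℂ (Fin r → ℂ) :=
  Submodule.span ℂ {v | ∀ h ∈ K, ∃ c : ℂ, ρ h *ᵥ v = c • v}

theorem EE_inv (ρ : Γ →* Matrix (Fin r) (Fin r) ℂ) (K : Subgroup Γ) [hK : K.Normal] :
    Inv ρ (EE ρ K) := by
  intro g v hv
  unfold EE at hv ⊢
  induction hv using Submodule.span_induction with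
  | mem x hx =>
    refine Submodule.subset_span fun h hh => ?_
    have h1 : g⁻¹ * h * g ∈ K := by
      have := hK.conj_mem h hh g⁻¹
      rwa [inv_inv] at this
    obtain ⟨c, hc⟩ := hx _ h1
    refine ⟨c, ?_⟩
    rw [mulVec_mulVec, ← mulVec_smul, ← hc, mulVec_mulVec, ← map_mul, ← map_mul]
    congr 2
    group
  | zero => rw [mulVec_zero]; exact Submodule.zero_mem _
  | add x y _ _ hx hy => rw [mulVec_add]; exact Submodule.add_mem _ hx hy
  | smul c x _ hx => rw [mulVec_smul]; exact Submodule.smul_mem _ _ hx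

theorem EE_mono (ρ : Γ →* Matrix (Fin r) (Fin r) ℂ) {K K' : Subgroup Γ} (h : K' ≤ K) :
    EE ρ K ≤ EE ρ K' :=
  Submodule.span_mono fun _ hv g hg => hv g (h hg)

/-- semisimple and virtually solvable implies virtually abelian -/
theorem va_of_vs (ρ : Γ →* Matrix (Fin r) (Fin r) ℂ) (hρ : Ssi ρ) (H0 : Subgroup Γ)
    (hH0 : H0.FiniteIndex) (n : ℕ) (hsol : ∀ g ∈ derivedSeries H0 n, ρ (g : Γ) = 1) :
    ∃ K : Subgroup Γ, K.Normal ∧ K.FiniteIndex ∧ ∀ a ∈ K, ∀ b ∈ K, ρ a * ρ b = ρ b * ρ a := by
  have main : ∀ m : ℕ, ∀ K : Subgroup Γ, K.Normal → K.FiniteIndex → r - finrank ℂ (EE ρ K) ≤ m →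
      ∃ K' : Subgroup Γ, K'.Normal ∧ K'.FiniteIndex ∧ EE ρ K' = ⊤ := by
    intro m
    induction m with
    | zero =>
      intro K hK hfi hm
      refine ⟨K, hK, hfi, Submodule.eq_top_of_finrank_eq ?_⟩
      have h1 := Submodule.finrank_le (EE ρ K)
      rw [Module.finrank_fin_fun] at h1 ⊢
      omega
    | succ m ih =>
      intro K hK hfi hm
      obtain ⟨V', hV', hc⟩ := hρ _ (EE_inv ρ K)
      by_cases hV : V' = ⊥
      · refine ⟨K, hK, hfi, ?_⟩
        have := hc.sup_eq_top
        rwa [hV, sup_bot_eq] at this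
      · obtain ⟨H', hH', v, hv, hv0, hv'⟩ := exists_common ρ H0 n hsol _ H0 le_rfl hH0 V' hV
          (fun g _ => hV' g) le_rfl
        have hfi' : (H' ⊓ K).FiniteIndex := inferInstance
        have hfi2 : (H' ⊓ K).normalCore.FiniteIndex := inferInstance
        refine ih (H' ⊓ K).normalCore inferInstance hfi2 ?_
        have hle : (H' ⊓ K).normalCore ≤ H' ⊓ K := Subgroup.normalCore_le _
        have hlt : EE ρ K < EE ρ (H' ⊓ K).normalCore := by
          refine lt_of_le_of_ne (EE_mono ρ (hle.trans inf_le_right)) fun heq => ?_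
          have h1 : v ∈ EE ρ K := by
            rw [heq]
            exact Submodule.subset_span fun g hg => hv' g (hle hg).1
          exact hv0 (by simpa using (Submodule.disjoint_def.1 hc.disjoint) v h1 hv)
        have h1 := Submodule.finrank_lt_finrank_of_lt hlt
        omega
  obtain ⟨K, hK, hfi, htop⟩ := main _ ⊤ inferInstance inferInstance le_rfl
  refine ⟨K, hK, hfi, fun a ha b hb => ?_⟩
  refine Matrix.mulVec_injective ?_
  funext v
  have hv : v ∈ EE ρ K := by rw [htop]; trivial
  unfold EE at hv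
  induction hv using Submodule.span_induction with
  | mem x hx =>
    obtain ⟨c, hc⟩ := hx a ha
    obtain ⟨c', hc'⟩ := hx b hb
    rw [← mulVec_mulVec, ← mulVec_mulVec, hc, hc', mulVec_smul, mulVec_smul, hc, hc', smul_smul,
      smul_smul, mul_comm]
  | zero => rw [mulVec_zero, mulVec_zero]
  | add x y _ _ hx hy => rw [mulVec_add, mulVec_add, hx, hy]
  | smul c x _ hx => rw [mulVec_smul, mulVec_smul, hx]

end Vale.Agent.P002.H326J
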