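import Vale.Agent.P002.H326J.DefsV
import Vale.Agent.P002.H326J.J7
import Vale.Agent.P002.H326J.J9
import Vale.Agent.P002.H306.Main

/-!
# Density of integral points in the locus of virtually solvable monodromy
-/

namespace Vale.Agent.P002.H326J

open Module Matrix Vale.Agent.P002.H306 Vale.Agent.P002R.Orb commutatorElement

variable {ι : Type} {r : ℕ}

/-- virtually solvable and semisimple: some normal subgroup of finite index has commuting image -/
theorem exists_K {R : Set (FreeGroup ι)} {X : ι → SpecialLinearGroup (Fin r) ℂ}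
    (hX : X ∈ YNone R r) (hv : IsVirtSolvable X) :
    ∃ K : Subgroup (FreeGroup ι), K.Normal ∧ K.FiniteIndex ∧
      ∀ a ∈ K, ∀ b ∈ K, mh X a * mh X b = mh X b * mh X a := by
  obtain ⟨A, -, hA, hidx⟩ := hv
  obtain ⟨n, hn⟩ := hA.solvable
  have hfi : (A.comap (FreeGroup.lift X)).FiniteIndex := by
    refine ⟨?_⟩
    rwa [Subgroup.index_comap, FreeGroup.range_lift_eq_closure]
  refine va_of_vs (mh X) ((mem_YNone_iff R X).1 hX).2 (A.comap (FreeGroup.lift X)) hfi n ?_
  intro g hg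
  let f : A.comap (FreeGroup.lift X) →* A := (FreeGroup.lift X).subgroupComap A
  have h1 : f g ∈ derivedSeries A n := map_derivedSeries_le_derivedSeries f n ⟨g, hg, rfl⟩
  rw [hn, Subgroup.mem_bot] at h1
  have h2 : FreeGroup.lift X (g : FreeGroup ι) = 1 := congrArg Subtype.val h1
  change (FreeGroup.lift X (g : FreeGroup ι)).1 = 1
  rw [h2]
  rfl

/-- eigenvalues of powers -/
theorem eig_pow (M : Matrix (Fin r) (Fin r) ℂ) {k : ℕ} (hk : 0 < k) {z : ℂ}
    (hz : (M ^ k).charpoly.IsRoot z) : ∃ y : ℂ, M.charpoly.IsRoot y ∧ y ^ k = z := by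
  have h1 : z ∈ spectrum ℂ (M ^ k) := Matrix.mem_spectrum_iff_isRoot_charpoly.2 hz
  rw [spectrum.map_pow_of_pos M hk] at h1
  obtain ⟨y, hy, h2⟩ := h1
  exact ⟨y, Matrix.mem_spectrum_iff_isRoot_charpoly.1 hy, h2⟩

/-- a quasi-unipotent matrix in a semisimple virtually abelian group has finite order -/
theorem finite_order {ρ : FreeGroup ι →* Matrix (Fin r) (Fin r) ℂ} (hρ : Ssi ρ)
    (K : Subgroup (FreeGroup ι)) [K.Normal] [K.FiniteIndex]
    (hK : ∀ a ∈ K, ∀ b ∈ K, ρ a * ρ b = ρ b * ρ a) (w : FreeGroup ι)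
    (hw : ∀ z, (ρ w).charpoly.IsRoot z → ∃ n : ℕ, 0 < n ∧ z ^ n = 1) :
    ∃ n : ℕ, 0 < n ∧ ρ w ^ n = 1 := by
  obtain ⟨P, Q, hPQ, hQP, hdiag⟩ := Vale.Agent.P002.H306.exists_diag ρ hρ K hK
  have hk0 : 0 < K.index := Nat.pos_of_ne_zero Subgroup.FiniteIndex.index_ne_zero
  obtain ⟨d, hd⟩ := hdiag (w ^ K.index) (Subgroup.pow_index_mem K w)
  rw [map_pow] at hd
  have hroot : ∀ i, ∃ n : ℕ, 0 < n ∧ d i ^ n = 1 := by
    intro i
    have h1 : (ρ w ^ K.index).charpoly.IsRoot (d i) := by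
      rw [charpoly_conj hPQ hQP hd, charpoly_diagonal]
      exact Polynomial.IsRoot.def.2 (by
        rw [Polynomial.eval_prod]
        exact Finset.prod_eq_zero (Finset.mem_univ i) (by simp))
    obtain ⟨y, hy, hy'⟩ := eig_pow (ρ w) hk0 h1
    obtain ⟨n, hn, hn'⟩ := hw y hy
    exact ⟨n, hn, by rw [← hy', ← pow_mul, mul_comm, pow_mul, hn', one_pow]⟩
  choose n hn hn' using hroot
  have hprod : ∀ i, d i ^ (∏ j, n j) = 1 := fun i => by
    rw [← Finset.mul_prod_erase _ _ (Finset.mem_univ i), pow_mul, hn', one_pow]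
  have hpow : ∀ m : ℕ, Q * (ρ w ^ K.index) ^ m * P = diagonal (fun i => d i ^ m) := by
    intro m
    induction m with
    | zero =>
      rw [pow_zero, mul_one, hQP]
      simp
    | succ m ih =>
      rw [pow_succ]
      calc Q * ((ρ w ^ K.index) ^ m * ρ w ^ K.index) * P
          = Q * (ρ w ^ K.index) ^ m * 1 * ρ w ^ K.index * P := by
            simp only [Matrix.mul_assoc, Matrix.one_mul]
        _ = (Q * (ρ w ^ K.index) ^ m * P) * (Q * ρ w ^ K.index * P) := by
            rw [← hPQ]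
            simp only [Matrix.mul_assoc]
        _ = _ := by
            rw [ih, hd, diagonal_mul_diagonal]
            simp only [pow_succ]
  refine ⟨K.index * ∏ j, n j, Nat.mul_pos hk0 (Finset.prod_pos fun j _ => hn j), ?_⟩
  have h1 := hpow (∏ j, n j)
  simp only [hprod] at h1
  have h2 : (diagonal fun _ : Fin r => (1 : ℂ)) = 1 := diagonal_one
  rw [h2] at h1
  rw [pow_mul]
  calc (ρ w ^ K.index) ^ (∏ j, n j) = (P * Q) * (ρ w ^ K.index) ^ (∏ j, n j) * (P * Q) := by
        rw [hPQ, Matrix.one_mul, Matrix.mul_one]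
    _ = P * (Q * (ρ w ^ K.index) ^ (∏ j, n j) * P) * Q := by simp only [Matrix.mul_assoc]
    _ = 1 := by rw [h1, Matrix.mul_one, hPQ]

theorem virtSolvable_of_comm [Finite ι] {X : ι → SpecialLinearGroup (Fin r) ℂ}
    (Δ : Subgroup (FreeGroup ι)) [Δ.FiniteIndex]
    (h : ∀ a ∈ Δ, ∀ b ∈ Δ, FreeGroup.lift X ⁅a, b⁆ = 1) : IsVirtSolvable X := by
  refine ⟨Δ.map (FreeGroup.lift X), ?_, ?_, ?_⟩
  · rw [← FreeGroup.range_lift_eq_closure]
    exact Subgroup.map_le_range _ _
  · refine Group.isSolvable_of_comm ?_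
    rintro ⟨_, a, ha, rfl⟩ ⟨_, b, hb, rfl⟩
    have h1 := h a ha b hb
    rw [map_commutatorElement, commutatorElement_eq_one_iff_mul_comm] at h1
    exact Subtype.ext h1
  · rw [← FreeGroup.range_lift_eq_closure, ← Subgroup.index_comap]
    have h1 : Δ ≤ (Δ.map (FreeGroup.lift X)).comap (FreeGroup.lift X) := Subgroup.le_comap_map _ _
    exact (Subgroup.finiteIndex_of_le h1).index_ne_zero

/-- One number field, `SL_r(𝓞 L)`-representations: the locus of virtually solvable monodromy -/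
theorem vs_dense [Finite ι] (R : Set (FreeGroup ι)) {s : ℕ} (w : Fin s → FreeGroup ι)
    (C₀ : Fin s → SpecialLinearGroup (Fin r) ℂ)
    (hC : ∀ j z, IsEigenvalue (C₀ j) z → ∃ n : ℕ, 0 < n ∧ z ^ n = 1) :
    ∃ L : IntermediateField ℚ ℂ, FiniteDimensional ℚ L ∧ IsDenseRep L (YV R w C₀) := by
  classical
  by_cases hfo : ∀ j, IsOfFinOrder (C₀ j)
  · obtain ⟨J, hJ⟩ := va_index r
    obtain ⟨Δ, hΔn, hΔf, hΔ⟩ := exists_delta ι J
    let R' : Set (FreeGroup ι) := R ∪ {c | (∃ a ∈ Δ, ∃ b ∈ Δ, c = ⁅a, b⁆) ∨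
      ∃ j, c = w j ^ orderOf (C₀ j)}
    obtain ⟨L, hL, hden⟩ := va_dense R' Δ (fun a ha b hb =>
      Subgroup.subset_normalClosure (Or.inr (Or.inl ⟨a, ha, b, hb, rfl⟩))) r
    refine ⟨L, hL, ?_⟩
    have hsub : YV R w C₀ ⊆ YNone R' r := by
      rintro X ⟨⟨hX, hcl⟩, hv⟩
      obtain ⟨K, hKn, hKf, hK⟩ := exists_K hX hv
      obtain ⟨A, hA0, hAJ, hA⟩ := hJ (FreeGroup ι) (mh X) ((mem_YNone_iff R X).1 hX).2 K hK
      have hle := hΔ A hA0 hAJ
      have hX' := (mem_YNone_iff R X).1 hX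
      refine (mem_YNone_iff R' X).2 ⟨?_, hX'.2⟩
      rintro c (hc | ⟨a, ha, b, hb, rfl⟩ | ⟨j, rfl⟩)
      · exact hX'.1 c hc
      · have h1 : FreeGroup.lift X ⁅a, b⁆ = 1 := by
          rw [map_commutatorElement, commutatorElement_eq_one_iff_mul_comm]
          exact Subtype.ext (hA a (hle ha) b (hle hb))
        change (FreeGroup.lift X ⁅a, b⁆).1 = 1
        rw [h1]
        rfl
      · have h1 : FreeGroup.lift X (w j ^ orderOf (C₀ j)) = 1 := by
          obtain ⟨U, hU⟩ := isConj_iff.1 (hcl j)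
          rw [map_pow, ← hU, conj_pow, pow_orderOf_eq_one, mul_one, mul_inv_cancel]
        change (FreeGroup.lift X (w j ^ orderOf (C₀ j))).1 = 1
        rw [h1]
        rfl
    have hmem : ∀ X ∈ YNone R' r, (∀ j, IsConj (C₀ j) (FreeGroup.lift X (w j))) →
        X ∈ YV R w C₀ := by
      intro X hX hcl
      have hX' := (mem_YNone_iff R' X).1 hX
      have hX1 : X ∈ YNone R r := (mem_YNone_iff R X).2 ⟨fun c hc => hX'.1 c (Or.inl hc), hX'.2⟩
      refine ⟨⟨hX1, hcl⟩, virtSolvable_of_comm Δ fun a ha b hb => ?_⟩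
      exact Subtype.ext (hX'.1 _ (Or.inr (Or.inl ⟨a, ha, b, hb, rfl⟩)))
    choose G hG using fun j => exists_sep (w j) (C₀ j) (hfo j).orderOf_pos
      (pow_orderOf_eq_one (C₀ j))
    intro F hF X hX
    have hprod : ∀ X : ι → SpecialLinearGroup (Fin r) ℂ,
        value (F * ∏ j, G j) X = value F X * ∏ j, value (G j) X := fun X => by
      simp only [value_eq, map_mul, map_prod]
    have h1 := hden (F * ∏ j, G j) (by
      intro X hX hint
      rw [hprod]
      by_cases hcl : ∀ j, IsConj (C₀ j) (FreeGroup.lift X (w j))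
      · rw [hF X (hmem X hX hcl) hint, zero_mul]
      · push Not at hcl
        obtain ⟨j, hj⟩ := hcl
        have hX' := (mem_YNone_iff R' X).1 hX
        have h2 : FreeGroup.lift X (w j) ^ orderOf (C₀ j) = 1 := by
          rw [← map_pow]
          exact Subtype.ext (hX'.1 _ (Or.inr (Or.inr ⟨j, rfl⟩)))
        rw [Finset.prod_eq_zero (Finset.mem_univ j) ((hG j X).2 h2 hj), mul_zero]) X (hsub hX)
    rw [hprod] at h1
    rcases mul_eq_zero.1 h1 with h2 | h2
    · exact h2
    · exact absurd h2 (Finset.prod_ne_zero_iff.2 fun j _ => (hG j X).1 (hX.1.2 j))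
  · refine ⟨⊥, inferInstance, ?_⟩
    have hempty : YV R w C₀ = ∅ := by
      rw [Set.eq_empty_iff_forall_notMem]
      rintro X ⟨⟨hX, hcl⟩, hv⟩
      apply hfo
      intro j
      obtain ⟨K, hKn, hKf, hK⟩ := exists_K hX hv
      obtain ⟨n, hn, hn'⟩ := finite_order ((mem_YNone_iff R X).1 hX).2 K hK (w j) (by
        intro z hz
        refine hC j z ?_
        have h1 := charpoly_isConj (hcl j)
        change (C₀ j).1.charpoly.IsRoot z
        rw [← h1]
        exact hz)
      have h1 : FreeGroup.lift X (w j) ^ n = 1 := by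
        rw [← map_pow]
        rw [← map_pow] at hn'
        exact Subtype.ext hn'
      obtain ⟨U, hU⟩ := isConj_iff.1 (hcl j)
      rw [isOfFinOrder_iff_pow_eq_one]
      refine ⟨n, hn, ?_⟩
      rw [← hU, conj_pow] at h1
      have h2 := congrArg (fun M => U⁻¹ * M * U) h1
      simp only [mul_one, inv_mul_cancel] at h2
      rw [← h2]
      group
    rw [hempty]
    exact fun _ _ X hX => absurd hX (Set.notMem_empty X)

/-- if the group is virtually solvable, the condition on the monodromy is void -/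
theorem yv_eq (R : Set (FreeGroup ι)) {s : ℕ} (w : Fin s → FreeGroup ι)
    (C₀ : Fin s → SpecialLinearGroup (Fin r) ℂ)
    (hG : ∃ H : Subgroup (PresentedGroup R), Group.IsSolvable H ∧ H.FiniteIndex) :
    YV R w C₀ = YW R w C₀ := by
  refine Set.Subset.antisymm (fun X hX => hX.1) fun X hX => ⟨hX, ?_⟩
  obtain ⟨H, hH, hHf⟩ := hG
  have hrel : ∀ c ∈ R, FreeGroup.lift X c = 1 := hX.1.1
  let f : PresentedGroup R →* SpecialLinearGroup (Fin r) ℂ := PresentedGroup.toGroup hrel
  have hf : f.range = Subgroup.closure (Set.range X) := by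
    rw [← FreeGroup.range_lift_eq_closure]
    ext g
    constructor
    · rintro ⟨x, rfl⟩
      obtain ⟨y, rfl⟩ := QuotientGroup.mk_surjective x
      exact ⟨y, rfl⟩
    · rintro ⟨y, rfl⟩
      exact ⟨QuotientGroup.mk y, rfl⟩
  refine ⟨H.map f, ?_, ?_, ?_⟩
  · rw [← hf]
    exact Subgroup.map_le_range _ _
  · have := hH
    exact Group.isSolvable_of_surjective (f := f.subgroupMap H) (f.subgroupMap_surjective H)
  · rw [← hf, ← Subgroup.index_comap]
    exact (Subgroup.finiteIndex_of_le (Subgroup.le_comap_map f H)).index_ne_zero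

end Vale.Agent.P002.H326J
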