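import Vale.Agent.P002.H326J.J1

/-!
# Jordan's theorem on finite linear groups: isometric representations
-/

namespace Vale.Agent.P002.H326J

open Module

section rep

variable {V : Type} [NormedAddCommGroup V] [InnerProductSpace ℂ V] [FiniteDimensional ℂ V]
  {G : Type} [Group G]

/-- the operator `ρ g` as a continuous linear map -/
noncomputable def C (ρ : G →* Module.End ℂ V) (g : G) : V →L[ℂ] V :=
  LinearMap.toContinuousLinearMap (ρ g)

theorem C_apply (ρ : G →* Module.End ℂ V) (g : G) (v : V) : C ρ g v = ρ g v := rfl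

theorem C_mul (ρ : G →* Module.End ℂ V) (g h : G) : C ρ (g * h) = C ρ g * C ρ h := by
  ext v
  simp [C_apply]

theorem C_one (ρ : G →* Module.End ℂ V) : C ρ 1 = 1 := by
  ext v
  simp [C_apply]

theorem C_inv_mul (ρ : G →* Module.End ℂ V) (g : G) : C ρ g⁻¹ * C ρ g = 1 := by
  rw [← C_mul, inv_mul_cancel, C_one]

theorem C_mul_inv (ρ : G →* Module.End ℂ V) (g : G) : C ρ g * C ρ g⁻¹ = 1 := by
  rw [← C_mul, mul_inv_cancel, C_one]

theorem C_norm {ρ : G →* Module.End ℂ V} (hρ : ∀ g v, ‖ρ g v‖ = ‖v‖) (g : G) : ‖C ρ g‖ ≤ 1 :=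
  ContinuousLinearMap.opNorm_le_bound _ zero_le_one fun v => by rw [C_apply, hρ, one_mul]

theorem index_le {d N : ℕ} (hN : ∀ (V : Type) [NormedAddCommGroup V] [InnerProductSpace ℂ V]
    [FiniteDimensional ℂ V], finrank ℂ V = d → ∀ (ι : Type) (f : ι → V →L[ℂ] V),
      (∀ i, ‖f i‖ ≤ 1) → (∀ i j, i ≠ j → 1 / 4 < ‖f i - f j‖) → Finite ι ∧ Nat.card ι ≤ N)
    (hd : finrank ℂ V = d) {ρ : G →* Module.End ℂ V} (hρ : ∀ g v, ‖ρ g v‖ = ‖v‖) :
    (Subgroup.closure {g | ‖C ρ g - 1‖ ≤ 1 / 4}).index ≤ N := by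
  set H := Subgroup.closure {g | ‖C ρ g - 1‖ ≤ 1 / 4} with hH
  refine (hN V hd (G ⧸ H) (fun x => C ρ x.out) (fun x => C_norm hρ _) fun x y hxy => ?_).2
  have h1 : x.out⁻¹ * y.out ∉ H := fun h => hxy (by
    have := QuotientGroup.eq.2 h
    rwa [QuotientGroup.out_eq', QuotientGroup.out_eq'] at this)
  have h2 : ¬ ‖C ρ (x.out⁻¹ * y.out) - 1‖ ≤ 1 / 4 := fun h => h1 (Subgroup.subset_closure h)
  have h3 : C ρ (x.out⁻¹ * y.out) - 1 = - (C ρ x.out⁻¹ * (C ρ x.out - C ρ y.out)) := by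
    rw [mul_sub, C_inv_mul, ← C_mul, neg_sub]
  rw [h3, norm_neg] at h2
  have h4 := norm_mul_le (C ρ x.out⁻¹) (C ρ x.out - C ρ y.out)
  have h5 := C_norm hρ x.out⁻¹
  have h6 := norm_nonneg (C ρ x.out - C ρ y.out)
  push_neg at h2
  nlinarith

/-- restriction of a representation to an invariant subspace -/
noncomputable def restr (ρ : G →* Module.End ℂ V) (W : Submodule ℂ V)
    (hW : ∀ g, ∀ v ∈ W, ρ g v ∈ W) : G →* Module.End ℂ W where
  toFun g := (ρ g).restrict (hW g)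
  map_one' := by
    ext v
    simp
  map_mul' g h := by
    ext v
    simp

theorem restr_apply (ρ : G →* Module.End ℂ V) (W : Submodule ℂ V)
    (hW : ∀ g, ∀ v ∈ W, ρ g v ∈ W) (g : G) (v : W) : (restr ρ W hW g v : V) = ρ g v := rfl

/-- the elements acting by scalars -/
def scal (ρ : G →* Module.End ℂ V) : Subgroup G where
  carrier := {g | ∃ c : ℂ, ρ g = c • 1}
  one_mem' := ⟨1, by simp⟩
  mul_mem' := by
    rintro a b ⟨c, hc⟩ ⟨c', hc'⟩
    exact ⟨c * c', by rw [map_mul, hc, hc', smul_mul_smul_comm, one_mul]⟩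
  inv_mem' := by
    rintro a ⟨c, hc⟩
    have h1 : ρ a⁻¹ * ρ a = 1 := by rw [← map_mul, inv_mul_cancel, map_one]
    by_cases h0 : c = 0
    · refine ⟨1, ?_⟩
      have h2 : (1 : Module.End ℂ V) = 0 := by rw [← h1, hc, h0]; simp
      have h3 : ∀ x : Module.End ℂ V, x = 0 := fun x => by rw [← mul_one x, h2, mul_zero]
      rw [h3 (ρ a⁻¹), h3 (1 : Module.End ℂ V), smul_zero]
    · refine ⟨c⁻¹, ?_⟩
      have h2 : c • ρ a⁻¹ = 1 := by
        rw [← h1, hc, mul_smul_comm, mul_one]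
      rw [← h2, smul_smul, inv_mul_cancel₀ h0, one_smul]

theorem comm_of_scal {ρ : G →* Module.End ℂ V} {g h : G} (hg : g ∈ scal ρ) :
    ρ g * ρ h = ρ h * ρ g := by
  obtain ⟨c, hc⟩ := hg
  rw [hc, smul_mul_assoc, one_mul, mul_smul_comm, mul_one]

/-- an element commuting up to a scalar with an element near the identity commutes with it -/
theorem comm_of_near (hV : 0 < finrank ℂ V) {ρ : G →* Module.End ℂ V} {g h : G}
    (hg : ‖C ρ g - 1‖ < 1) (hs : g * h * g⁻¹ * h⁻¹ ∈ scal ρ) : ρ g * ρ h = ρ h * ρ g := by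
  obtain ⟨c, hc⟩ := hs
  have h1 : ρ g * ρ h = c • (ρ h * ρ g) := by
    have : ρ (g * h * g⁻¹ * h⁻¹) * ρ (h * g) = ρ (g * h) := by
      rw [← map_mul]
      congr 1
      group
    rw [hc, smul_mul_assoc, one_mul] at this
    rw [← map_mul, ← map_mul, this]
  have h2 : ρ h⁻¹ * ρ g * ρ h = c • ρ g := by
    rw [mul_assoc, h1, mul_smul_comm, ← mul_assoc, ← map_mul, inv_mul_cancel, map_one, one_mul]
  have h3 : LinearMap.trace ℂ V (ρ h⁻¹ * ρ g * ρ h) = LinearMap.trace ℂ V (ρ g) := by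
    rw [LinearMap.trace_mul_comm, ← mul_assoc, ← map_mul, mul_inv_cancel, map_one, one_mul]
  have h4 : LinearMap.trace ℂ V (ρ g) ≠ 0 := trace_ne_zero hV (C ρ g) hg
  rw [h2, map_smul, smul_eq_mul] at h3
  have h5 : c = 1 := by
    have : (c - 1) * LinearMap.trace ℂ V (ρ g) = 0 := by rw [sub_mul, h3, one_mul, sub_self]
    rcases mul_eq_zero.1 this with h | h
    · exact sub_eq_zero.1 h
    · exact absurd h h4
  rw [h1, h5, one_smul]

theorem comm_norm {ρ : G →* Module.End ℂ V} (hρ : ∀ g v, ‖ρ g v‖ = ‖v‖) (g h : G) :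
    ‖C ρ (g * h * g⁻¹ * h⁻¹) - 1‖ ≤ 2 * (‖C ρ g - 1‖ * ‖C ρ h - 1‖) := by
  have h1 : C ρ (g * h * g⁻¹ * h⁻¹) - 1 = (C ρ g * C ρ h - C ρ h * C ρ g) * C ρ (h * g)⁻¹ := by
    rw [sub_mul, ← C_mul, ← C_mul, ← C_mul, ← C_mul, mul_inv_cancel, C_one]
    congr 2
    group
  rw [h1]
  have h2 := norm_mul_le (C ρ g * C ρ h - C ρ h * C ρ g) (C ρ (h * g)⁻¹)
  have h3 := C_norm hρ (h * g)⁻¹
  have h4 := comm_le (C ρ g) (C ρ h)
  have h5 := norm_nonneg (C ρ g * C ρ h - C ρ h * C ρ g)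
  nlinarith

end rep

end Vale.Agent.P002.H326J
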