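import Vale.Agent.P002.H326J.J2

/-!
# Jordan's theorem on finite linear groups
-/

namespace Vale.Agent.P002.H326J

open Module

/-- Jordan's theorem for isometric representations of finite groups -/
theorem jordan_isom (d : ℕ) : ∃ J : ℕ, ∀ (V : Type) [NormedAddCommGroup V] [InnerProductSpace ℂ V]
    [FiniteDimensional ℂ V], finrank ℂ V = d → ∀ (G : Type) [Group G] [Finite G]
      (ρ : G →* Module.End ℂ V), (∀ g v, ‖ρ g v‖ = ‖v‖) →
        ∃ A : Subgroup G, A.index ≤ J ∧ ∀ a ∈ A, ∀ b ∈ A, ρ a * ρ b = ρ b * ρ a := by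
  induction d using Nat.strong_induction_on with
  | _ d IH =>
  have IH' : ∀ k, ∃ J : ℕ, k < d → ∀ (V : Type) [NormedAddCommGroup V] [InnerProductSpace ℂ V]
      [FiniteDimensional ℂ V], finrank ℂ V = k → ∀ (G : Type) [Group G] [Finite G]
      (ρ : G →* Module.End ℂ V), (∀ g v, ‖ρ g v‖ = ‖v‖) →
        ∃ A : Subgroup G, A.index ≤ J ∧ ∀ a ∈ A, ∀ b ∈ A, ρ a * ρ b = ρ b * ρ a := fun k => by
    by_cases hk : k < d
    · obtain ⟨J, hJ⟩ := IH k hk
      exact ⟨J, fun _ => hJ⟩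
    · exact ⟨0, fun h => absurd h hk⟩
  choose J hJ using IH'
  obtain ⟨N, hN⟩ := pack d
  set M := ∑ k ∈ Finset.range d, J k with hM
  have hJM : ∀ k < d, J k ≤ M := fun k hk =>
    Finset.single_le_sum (f := J) (fun i _ => Nat.zero_le _) (Finset.mem_range.2 hk)
  refine ⟨N * (M * M + 1), fun V _ _ _ hV G _ _ ρ hρ => ?_⟩
  have hidx := index_le hN hV hρ
  set G' := Subgroup.closure {g | ‖C ρ g - 1‖ ≤ 1 / 4} with hG'
  by_cases hB : ∃ g, ‖C ρ g - 1‖ ≤ 1 / 4 ∧ g ∉ scal ρ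
  · obtain ⟨g, ⟨hg1, hg2⟩, hmin⟩ := Set.exists_min_image {g | ‖C ρ g - 1‖ ≤ 1 / 4 ∧ g ∉ scal ρ}
      (fun g => ‖C ρ g - 1‖) (Set.toFinite _) hB
    have hpos : 0 < ‖C ρ g - 1‖ := by
      rw [norm_pos_iff]
      intro h0
      refine hg2 ⟨1, ?_⟩
      rw [one_smul]
      ext v
      have := congrArg (fun T : V →L[ℂ] V => T v) (sub_eq_zero.1 h0)
      simpa [C_apply] using this
    have hfin : 0 < finrank ℂ V := by
      by_contra h0
      have h1 : finrank ℂ V = 0 := by omega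
      have h2 : Subsingleton V := finrank_zero_iff.1 h1
      refine hg2 ⟨1, ?_⟩
      ext v
      exact Subsingleton.elim _ _
    have hcS : ∀ h, ‖C ρ h - 1‖ ≤ 1 / 4 → ρ g * ρ h = ρ h * ρ g := by
      intro h hh
      refine comm_of_near hfin (by linarith) ?_
      by_contra hs
      have h1 := comm_norm hρ g h
      have h2 : ‖C ρ (g * h * g⁻¹ * h⁻¹) - 1‖ ≤ 1 / 4 := by
        have := norm_nonneg (C ρ h - 1)
        nlinarith
      have h3 := hmin _ ⟨h2, hs⟩
      have := norm_nonneg (C ρ h - 1)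
      nlinarith
    have hcG : ∀ h ∈ G', ρ g * ρ h = ρ h * ρ g := by
      intro h hh
      rw [hG'] at hh
      induction hh using Subgroup.closure_induction with
      | mem x hx => exact hcS x hx
      | one => rw [map_one, mul_one, one_mul]
      | mul x y _ _ hx hy => rw [map_mul, ← mul_assoc, hx, mul_assoc, hy, mul_assoc]
      | inv x _ hx =>
        have h1 : ρ x⁻¹ * ρ x = 1 := by rw [← map_mul, inv_mul_cancel, map_one]
        have h2 : ρ x * ρ x⁻¹ = 1 := by rw [← map_mul, mul_inv_cancel, map_one]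
        calc ρ g * ρ x⁻¹ = ρ x⁻¹ * (ρ x * ρ g) * ρ x⁻¹ := by
              rw [← mul_assoc, h1, one_mul]
          _ = ρ x⁻¹ * (ρ g * ρ x) * ρ x⁻¹ := by rw [hx]
          _ = ρ x⁻¹ * ρ g := by rw [mul_assoc, mul_assoc, h2, mul_one]
    have hnt : Nontrivial V := finrank_pos_iff.1 hfin
    obtain ⟨μ, hμ⟩ := Module.End.exists_eigenvalue (ρ g)
    set W := Module.End.eigenspace (ρ g) μ with hW
    have hWb : W ≠ ⊥ := hμ
    have hWt : W ≠ ⊤ := by
      intro h0
      refine hg2 ⟨μ, ?_⟩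
      ext v
      have : v ∈ W := by rw [h0]; trivial
      rw [hW, Module.End.mem_eigenspace_iff] at this
      simpa using this
    have hinv : ∀ h : G', ∀ v ∈ W, (ρ.comp G'.subtype) h v ∈ W := by
      intro h v hv
      rw [hW, Module.End.mem_eigenspace_iff] at hv ⊢
      have h1 := congrArg (fun T : Module.End ℂ V => T v) (hcG h.1 h.2)
      simp only [Module.End.mul_apply] at h1
      change ρ g (ρ h.1 v) = μ • ρ h.1 v
      rw [h1, hv, map_smul]
    have hinner : ∀ (h : G) (x y : V), inner ℂ (ρ h x) (ρ h y) = inner ℂ x y := fun h x y =>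
      (⟨ρ h, hρ h⟩ : V →ₗᵢ[ℂ] V).inner_map_map x y
    have hinv' : ∀ h : G', ∀ v ∈ Wᗮ, (ρ.comp G'.subtype) h v ∈ Wᗮ := by
      intro h v hv
      rw [Submodule.mem_orthogonal] at hv ⊢
      intro w hw
      have h1 := hv _ (hinv h⁻¹ w hw)
      rw [← hinner h.1] at h1
      have h2 : ρ h.1 ((ρ.comp G'.subtype) h⁻¹ w) = w := by
        change ρ h.1 (ρ (h.1)⁻¹ w) = w
        have : ρ h.1 * ρ (h.1)⁻¹ = 1 := by rw [← map_mul, mul_inv_cancel, map_one]
        exact congrArg (fun T : Module.End ℂ V => T w) this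
      rw [h2] at h1
      exact h1
    have hd1 : finrank ℂ W < d := hV ▸ Submodule.finrank_lt hWt
    have hd2 : finrank ℂ Wᗮ < d := by
      have h1 := W.finrank_add_finrank_orthogonal
      have h2 : 0 < finrank ℂ W := Submodule.one_le_finrank_iff.2 hWb
      omega
    obtain ⟨A1, hA1, hA1'⟩ := hJ _ hd1 W rfl G' (restr _ W hinv) (fun h v => by
      rw [Submodule.coe_norm, restr_apply]
      exact hρ _ _)
    obtain ⟨A2, hA2, hA2'⟩ := hJ _ hd2 Wᗮ rfl G' (restr _ Wᗮ hinv') (fun h v => by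
      rw [Submodule.coe_norm, restr_apply]
      exact hρ _ _)
    refine ⟨(A1 ⊓ A2).map G'.subtype, ?_, ?_⟩
    · rw [Subgroup.index_map_subtype]
      have h1 : (A1 ⊓ A2).index ≤ M * M :=
        Subgroup.index_inf_le.trans (Nat.mul_le_mul (hA1.trans (hJM _ hd1))
          (hA2.trans (hJM _ hd2)))
      calc (A1 ⊓ A2).index * G'.index ≤ (M * M) * N := Nat.mul_le_mul h1 hidx
        _ ≤ N * (M * M + 1) := by ring_nf; omega
    · rintro _ ⟨a, ⟨ha1, ha2⟩, rfl⟩ _ ⟨b, ⟨hb1, hb2⟩, rfl⟩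
      have hw : ∀ w ∈ W, (ρ a.1 * ρ b.1) w = (ρ b.1 * ρ a.1) w := fun w hw => by
        have := congrArg (fun T : Module.End ℂ W => ((T ⟨w, hw⟩ : W) : V)) (hA1' a ha1 b hb1)
        exact this
      have hw' : ∀ w ∈ Wᗮ, (ρ a.1 * ρ b.1) w = (ρ b.1 * ρ a.1) w := fun w hw => by
        have := congrArg (fun T : Module.End ℂ Wᗮ => ((T ⟨w, hw⟩ : Wᗮ) : V)) (hA2' a ha2 b hb2)
        exact this
      refine LinearMap.ext fun v => ?_
      have hv : v ∈ W ⊔ Wᗮ := by
        rw [Submodule.sup_orthogonal_of_hasOrthogonalProjection]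
        trivial
      obtain ⟨w, hw1, w', hw2, rfl⟩ := Submodule.mem_sup.1 hv
      change (ρ a.1 * ρ b.1) (w + w') = (ρ b.1 * ρ a.1) (w + w')
      rw [map_add, map_add, hw w hw1, hw' w' hw2]
  · push Not at hB
    refine ⟨G', ?_, ?_⟩
    · calc G'.index ≤ N * 1 := by rw [mul_one]; exact hidx
        _ ≤ N * (M * M + 1) := Nat.mul_le_mul_left _ (by omega)
    · have h1 : G' ≤ scal ρ := (Subgroup.closure_le _).2 fun g hg => hB g hg
      intro a ha b _
      exact comm_of_scal (h1 ha)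

end Vale.Agent.P002.H326J
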