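import Vale.Agent.P002.H326J.J3

/-!
# Jordan's theorem for finite matrix groups
-/

namespace Vale.Agent.P002.H326J

open Module Matrix
open scoped ComplexOrder MatrixOrder

/-- unitarisation -/
theorem exists_unitarisation {r : ℕ} {G : Type} [Group G] [Finite G]
    (s : G →* Matrix (Fin r) (Fin r) ℂ) :
    ∃ B : Matrix (Fin r) (Fin r) ℂ, IsUnit B.det ∧ ∀ g,
      (B * s g * B⁻¹)ᴴ * (B * s g * B⁻¹) = 1 := by
  classical
  have := Fintype.ofFinite G
  let P : Matrix (Fin r) (Fin r) ℂ := ∑ g, (s g)ᴴ * s g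
  have hP : P.PosDef := by
    have h1 : P = (s 1)ᴴ * s 1 + ∑ g ∈ Finset.univ.erase 1, (s g)ᴴ * s g :=
      (Finset.add_sum_erase _ _ (Finset.mem_univ _)).symm
    rw [h1, map_one, conjTranspose_one, one_mul]
    refine PosDef.add_posSemidef PosDef.one ?_
    exact posSemidef_sum _ fun g _ => posSemidef_conjTranspose_mul_self (s g)
  obtain ⟨B, hB⟩ := CStarAlgebra.nonneg_iff_eq_star_mul_self.mp hP.posSemidef.nonneg
  have hdet : IsUnit B.det := by
    rw [isUnit_iff_ne_zero]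
    intro h0
    have h1 : P.det = 0 := by rw [hB, det_mul, h0, mul_zero]
    exact (hP.posSemidef.posDef_iff_det_ne_zero.1 hP) h1
  refine ⟨B, hdet, fun g => ?_⟩
  have hg : (s g)ᴴ * P * s g = P := by
    calc (s g)ᴴ * P * s g = ∑ h, (s g)ᴴ * ((s h)ᴴ * s h) * s g := by
          rw [Finset.mul_sum, Finset.sum_mul]
      _ = ∑ h, (s (h * g))ᴴ * s (h * g) := by
          refine Finset.sum_congr rfl fun h _ => ?_
          rw [map_mul, conjTranspose_mul]
          simp only [Matrix.mul_assoc]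
      _ = P := Equiv.sum_comp (Equiv.mulRight g) (fun h => (s h)ᴴ * s h)
  have h2 : Bᴴ * B = P := hB.symm
  have h3 : B * B⁻¹ = 1 := mul_nonsing_inv _ hdet
  have h4 : (B⁻¹)ᴴ * Bᴴ = 1 := by rw [← conjTranspose_mul, h3, conjTranspose_one]
  calc (B * s g * B⁻¹)ᴴ * (B * s g * B⁻¹)
      = (B⁻¹)ᴴ * ((s g)ᴴ * (Bᴴ * B) * s g) * B⁻¹ := by
        simp only [conjTranspose_mul, Matrix.mul_assoc]
    _ = (B⁻¹)ᴴ * (Bᴴ * B) * B⁻¹ := by rw [h2, hg]
    _ = ((B⁻¹)ᴴ * Bᴴ) * (B * B⁻¹) := by simp only [Matrix.mul_assoc]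
    _ = 1 := by rw [h3, h4, one_mul]

/-- Jordan's theorem for finite groups of matrices -/
theorem jordan (r : ℕ) : ∃ J : ℕ, ∀ (G : Type) [Group G] [Finite G]
    (s : G →* Matrix (Fin r) (Fin r) ℂ),
      ∃ A : Subgroup G, A.index ≤ J ∧ ∀ a ∈ A, ∀ b ∈ A, s a * s b = s b * s a := by
  obtain ⟨J, hJ⟩ := jordan_isom r
  refine ⟨J, fun G _ _ s => ?_⟩
  obtain ⟨B, hB, hU⟩ := exists_unitarisation s
  have hBB : B⁻¹ * B = 1 := nonsing_inv_mul _ hB
  have hBB' : B * B⁻¹ = 1 := mul_nonsing_inv _ hB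
  let ρ : G →* Module.End ℂ (EuclideanSpace ℂ (Fin r)) :=
    { toFun := fun g => (toEuclideanCLM (n := Fin r) (𝕜 := ℂ) (B * s g * B⁻¹) :
        EuclideanSpace ℂ (Fin r) →L[ℂ] EuclideanSpace ℂ (Fin r))
      map_one' := by
        rw [map_one, mul_one, hBB', map_one]
        rfl
      map_mul' := fun g h => by
        have : B * s (g * h) * B⁻¹ = (B * s g * B⁻¹) * (B * s h * B⁻¹) := by
          rw [map_mul]
          calc B * (s g * s h) * B⁻¹ = B * s g * 1 * s h * B⁻¹ := by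
                simp only [Matrix.mul_assoc, Matrix.one_mul]
            _ = B * s g * (B⁻¹ * B) * s h * B⁻¹ := by rw [hBB]
            _ = _ := by simp only [Matrix.mul_assoc]
        rw [this, map_mul]
        rfl }
  have hρ : ∀ g v, ‖ρ g v‖ = ‖v‖ := by
    intro g
    have h1 : ContinuousLinearMap.adjoint (toEuclideanCLM (n := Fin r) (𝕜 := ℂ) (B * s g * B⁻¹)) ∘L
        toEuclideanCLM (n := Fin r) (𝕜 := ℂ) (B * s g * B⁻¹) = 1 := by
      have h2 := congrArg (toEuclideanCLM (n := Fin r) (𝕜 := ℂ)) (hU g)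
      rw [map_mul, map_one, ← star_eq_conjTranspose, map_star] at h2
      exact h2
    exact (ContinuousLinearMap.norm_map_iff_adjoint_comp_self _).2 h1
  obtain ⟨A, hA, hA'⟩ := hJ (EuclideanSpace ℂ (Fin r)) (by simp) G ρ hρ
  refine ⟨A, hA, fun a ha b hb => ?_⟩
  have h1 : toEuclideanCLM (n := Fin r) (𝕜 := ℂ) (B * s a * B⁻¹) *
      toEuclideanCLM (n := Fin r) (𝕜 := ℂ) (B * s b * B⁻¹) =
      toEuclideanCLM (n := Fin r) (𝕜 := ℂ) (B * s b * B⁻¹) *
      toEuclideanCLM (n := Fin r) (𝕜 := ℂ) (B * s a * B⁻¹) := by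
    ext v
    have := congrArg (fun T : Module.End ℂ (EuclideanSpace ℂ (Fin r)) => T v) (hA' a ha b hb)
    exact congrArg (fun w : EuclideanSpace ℂ (Fin r) => w _) this
  rw [← map_mul, ← map_mul] at h1
  have h2 := (toEuclideanCLM (n := Fin r) (𝕜 := ℂ)).injective h1
  have h3 : ∀ x y : G, B * s x * B⁻¹ * (B * s y * B⁻¹) = B * (s x * s y) * B⁻¹ := fun x y => by
    calc B * s x * B⁻¹ * (B * s y * B⁻¹) = B * s x * (B⁻¹ * B) * s y * B⁻¹ := by
          simp only [Matrix.mul_assoc]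
      _ = _ := by rw [hBB]; simp only [Matrix.mul_assoc, Matrix.one_mul]
  rw [h3, h3] at h2
  have h4 := congrArg (fun T => B⁻¹ * T * B) h2
  simp only [Matrix.mul_assoc, hBB, Matrix.mul_one] at h4
  simpa only [← Matrix.mul_assoc, hBB, Matrix.one_mul] using h4

end Vale.Agent.P002.H326J
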