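import Vale.Agent.P002.H326J.J4
import Vale.Agent.P002.H306.Wt
import Vale.Agent.P002.H306.Coc

/-!
# Semisimple virtually abelian linear groups: an abelian subgroup of bounded index
-/

namespace Vale.Agent.P002.H326J

open Module Matrix Vale.Agent.P002.H306

section DD

variable {r l : ℕ} (lab : Fin r → Fin l)

/-- block scalars -/
noncomputable def DD : (Fin l → ℂˣ) →* (Matrix (Fin r) (Fin r) ℂ)ˣ where
  toFun u := ⟨diagonal fun i => (u (lab i) : ℂ), diagonal fun i => ((u (lab i))⁻¹ : ℂˣ),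
    by rw [diagonal_mul_diagonal]; simp, by rw [diagonal_mul_diagonal]; simp⟩
  map_one' := by
    ext1
    simp
  map_mul' u v := by
    ext1
    simp

theorem DD_val (u : Fin l → ℂˣ) :
    ((DD lab u : (Matrix (Fin r) (Fin r) ℂ)ˣ) : Matrix (Fin r) (Fin r) ℂ) =
      diagonal fun i => (u (lab i) : ℂ) := rfl

theorem DD_inj (hl : Function.Surjective lab) : Function.Injective (DD lab) := by
  intro u v huv
  funext x
  obtain ⟨i, rfl⟩ := hl x
  have h1 := congrArg (fun U : (Matrix (Fin r) (Fin r) ℂ)ˣ => (U : Matrix (Fin r) (Fin r) ℂ) i i) huv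
  simp only [DD_val, diagonal_apply_eq] at h1
  exact Units.ext h1

theorem div_units (n : ℕ) (hn : 0 < n) (t : Fin l → ℂˣ) : ∃ s : Fin l → ℂˣ, s ^ n = t := by
  have h : ∀ z : ℂˣ, ∃ w : ℂˣ, w ^ n = z := fun z => by
    obtain ⟨w, hw⟩ := IsAlgClosed.exists_pow_nat_eq (z : ℂ) hn
    have h0 : w ≠ 0 := by
      rintro rfl
      rw [zero_pow hn.ne'] at hw
      exact z.ne_zero hw.symm
    exact ⟨Units.mk0 w h0, Units.ext (by simpa using hw)⟩
  choose f hf using h
  exact ⟨fun x => f (t x), funext fun x => hf _⟩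

theorem fin_tors (M : ℕ) (hM : 0 < M) : {u : Fin l → ℂˣ | u ^ M = 1}.Finite := by
  have h1 : {z : ℂˣ | z ^ M = 1}.Finite := by
    have : NeZero M := ⟨hM.ne'⟩
    have h2 : ((rootsOfUnity M ℂ : Subgroup ℂˣ) : Set ℂˣ).Finite :=
      Set.finite_coe_iff.1 (inferInstanceAs (Finite (rootsOfUnity M ℂ)))
    refine h2.subset fun z hz => ?_
    exact (mem_rootsOfUnity _ _).2 hz
  refine (Set.Finite.pi' (fun _ : Fin l => h1)).subset fun u hu x => ?_
  exact congrFun hu x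

end DD

theorem va_index (r : ℕ) : ∃ J : ℕ, ∀ (Γ : Type) [Group Γ] (ρ : Γ →* Matrix (Fin r) (Fin r) ℂ),
    Ssi ρ → ∀ (H : Subgroup Γ) [H.Normal] [H.FiniteIndex],
      (∀ a ∈ H, ∀ b ∈ H, ρ a * ρ b = ρ b * ρ a) →
        ∃ A : Subgroup Γ, A.index ≠ 0 ∧ A.index ≤ J ∧ ∀ a ∈ A, ∀ b ∈ A, ρ a * ρ b = ρ b * ρ a := by
  classical
  obtain ⟨J, hJ⟩ := jordan r
  refine ⟨r.factorial * J, fun Γ _ ρ hρ H _ _ hH => ?_⟩
  obtain ⟨P, Q, hPQ, hQP, hdiag⟩ := exists_diag ρ hρ H hH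
  let σ : Γ →* Matrix (Fin r) (Fin r) ℂ :=
    { toFun := fun g => Q * ρ g * P
      map_one' := by rw [map_one, mul_one, hQP]
      map_mul' := fun g h => by
        rw [map_mul]
        calc Q * (ρ g * ρ h) * P = Q * ρ g * 1 * ρ h * P := by
              simp only [Matrix.mul_assoc, Matrix.one_mul]
          _ = Q * ρ g * (P * Q) * ρ h * P := by rw [hPQ]
          _ = _ := by simp only [Matrix.mul_assoc] }
  have hσρ : ∀ g, ρ g = P * σ g * Q := fun g => by
    change ρ g = P * (Q * ρ g * P) * Q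
    calc ρ g = 1 * ρ g * 1 := by rw [Matrix.one_mul, Matrix.mul_one]
      _ = (P * Q) * ρ g * (P * Q) := by rw [hPQ]
      _ = _ := by simp only [Matrix.mul_assoc]
  obtain ⟨l, lab, α, hlr, hlab, hlabα, hu⟩ := exists_labels σ H (fun h hh => hdiag h hh)
  let σ' : Γ →* (Matrix (Fin r) (Fin r) ℂ)ˣ := σ.toHomUnits
  have hσ' : ∀ g, ((σ' g : (Matrix (Fin r) (Fin r) ℂ)ˣ) : Matrix (Fin r) (Fin r) ℂ) = σ g :=
    fun g => rfl
  let act : Γ →* MulAut (Fin l → ℂˣ) :=
    { toFun := fun g =>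
        { toFun := fun u x => u ((α g)⁻¹ x)
          invFun := fun u x => u (α g x)
          left_inv := fun u => by funext x; simp
          right_inv := fun u => by funext x; simp
          map_mul' := fun u v => rfl }
      map_one' := by
        ext u x
        simp
      map_mul' := fun g h => by
        ext u x
        simp }
  have hactx : ∀ g u x, act g u x = u ((α g)⁻¹ x) := fun g u x => rfl
  have hact : ∀ g u, σ' g * DD lab u = DD lab (act g u) * σ' g := by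
    intro g u
    ext i j
    rw [Units.val_mul, Units.val_mul, DD_val, DD_val, hσ', mul_diagonal, diagonal_mul, hactx]
    by_cases h0 : σ g i j = 0
    · rw [h0, zero_mul, mul_zero]
    · rw [hlabα g i j h0]
      simp [mul_comm]
  have hHD : ∀ h ∈ H, ∃ u, σ' h = DD lab u := by
    intro h hh
    obtain ⟨u, hu1⟩ := hu h hh
    obtain ⟨v, hv1⟩ := hu h⁻¹ (H.inv_mem hh)
    have huv : ∀ x, u x * v x = 1 := by
      intro x
      obtain ⟨i, rfl⟩ := hlab x
      have h1 : σ h * σ h⁻¹ = 1 := by rw [← map_mul, mul_inv_cancel, map_one]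
      rw [hu1, hv1, diagonal_mul_diagonal] at h1
      have h2 := congrFun (congrFun h1 i) i
      simpa using h2
    refine ⟨fun x => ⟨u x, v x, huv x, by rw [mul_comm, huv x]⟩, ?_⟩
    ext1
    rw [hσ', hu1, DD_val]
    rfl
  obtain ⟨w, hw1, hw2⟩ := split (DD lab) (DD_inj lab hlab) σ' act hact H hHD div_units
  obtain ⟨Φ, hΦ⟩ := hw2 H.index dvd_rfl
  have hidx : 0 < H.index := Nat.pos_of_ne_zero Subgroup.FiniteIndex.index_ne_zero
  have hΦfin : Finite Φ := by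
    have hq : Finite (Γ ⧸ H) := inferInstance
    have h1 : (Φ : Set (Matrix (Fin r) (Fin r) ℂ)ˣ) ⊆
        (fun p : (Fin l → ℂˣ) × (Γ ⧸ H) => DD lab p.1 * w p.2) ''
          ({u : Fin l → ℂˣ | u ^ H.index = 1} ×ˢ Set.univ) := by
      intro g hg
      obtain ⟨u, q, hu, rfl⟩ := (hΦ g).1 hg
      exact ⟨(u, q), ⟨hu, trivial⟩, rfl⟩
    exact ((((fin_tors H.index hidx).prod Set.finite_univ).image _).subset h1).to_subtype
  have hwΦ : ∀ γ, ∃ t : Fin l → ℂˣ, ∃ φ : Φ, σ' γ = DD lab t * φ := by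
    intro γ
    obtain ⟨t, ht⟩ := hw1 γ
    exact ⟨t, ⟨w γ, (hΦ _).2 ⟨1, γ, one_pow _, by rw [map_one, one_mul]⟩⟩, ht⟩
  obtain ⟨AΦ, hA1, hA2⟩ := hJ Φ ((Units.coeHom _).comp Φ.subtype)
  have hAc : ∀ a ∈ AΦ, ∀ b ∈ AΦ,
      (a : (Matrix (Fin r) (Fin r) ℂ)ˣ) * (b : (Matrix (Fin r) (Fin r) ℂ)ˣ) = b * a :=
    fun a ha b hb => Units.ext (hA2 a ha b hb)
  have hcomm : ∀ γ (t : Fin l → ℂˣ) (φ : (Matrix (Fin r) (Fin r) ℂ)ˣ), α γ = 1 →
      σ' γ = DD lab t * φ → ∀ u, φ * DD lab u = DD lab u * φ := by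
    intro γ t φ hγ h u
    have h1 : act γ u = u := by
      funext x
      rw [hactx, hγ]
      simp
    have h2 := hact γ u
    rw [h1, h] at h2
    have h3 : DD lab t * DD lab u = DD lab u * DD lab t := by
      rw [← map_mul, ← map_mul, mul_comm]
    rw [mul_assoc, ← mul_assoc (DD lab u), ← h3, mul_assoc] at h2
    exact mul_left_cancel h2
  let A : Subgroup Γ :=
    { carrier := {γ | α γ = 1 ∧ ∃ t : Fin l → ℂˣ, ∃ φ : Φ, φ ∈ AΦ ∧ σ' γ = DD lab t * φ}
      one_mem' := ⟨map_one _, 1, 1, AΦ.one_mem, by simp⟩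
      mul_mem' := by
        rintro a b ⟨ha, t, φ, hφ, h1⟩ ⟨hb, t', φ', hφ', h2⟩
        refine ⟨by rw [map_mul, ha, hb, one_mul], t * t', φ * φ', AΦ.mul_mem hφ hφ', ?_⟩
        rw [map_mul, h1, h2, mul_assoc, ← mul_assoc (φ : (Matrix (Fin r) (Fin r) ℂ)ˣ),
          hcomm a t φ ha h1, map_mul, Subgroup.coe_mul]
        simp only [mul_assoc]
      inv_mem' := by
        rintro a ⟨ha, t, φ, hφ, h1⟩
        refine ⟨by rw [map_inv, ha, inv_one], t⁻¹, φ⁻¹, AΦ.inv_mem hφ, ?_⟩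
        rw [map_inv, h1, ← hcomm a t φ ha h1, _root_.mul_inv_rev, map_inv, Subgroup.coe_inv] }
  have hmemA : ∀ γ, γ ∈ A ↔ α γ = 1 ∧ ∃ t : Fin l → ℂˣ, ∃ φ : Φ, φ ∈ AΦ ∧
    σ' γ = DD lab t * φ := fun _ => Iff.rfl
  choose tt φφ hφφ using hwΦ
  have hinj : Function.Injective (fun x : Γ ⧸ A => (α x.out, (φφ x.out : Φ ⧸ AΦ))) := by
    intro x y hxy
    simp only [Prod.mk.injEq] at hxy
    obtain ⟨h1, h2⟩ := hxy
    have h3 : (φφ x.out)⁻¹ * φφ y.out ∈ AΦ := QuotientGroup.eq.1 h2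
    have h4 : x.out⁻¹ * y.out ∈ A := by
      rw [hmemA]
      refine ⟨by rw [map_mul, map_inv, h1, inv_mul_cancel], act x.out⁻¹ ((tt x.out)⁻¹ * tt y.out),
        _, h3, ?_⟩
      have h5 := hact x.out⁻¹ ((tt x.out)⁻¹ * tt y.out)
      have h6 : DD lab (act x.out⁻¹ ((tt x.out)⁻¹ * tt y.out)) =
          σ' x.out⁻¹ * DD lab ((tt x.out)⁻¹ * tt y.out) * σ' x.out := by
        rw [h5, mul_assoc, ← map_mul, inv_mul_cancel, map_one, mul_one]
      rw [h6, map_mul σ', hφφ y.out, map_inv]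
      have h7 := hφφ x.out
      have h8 : σ' x.out * (φφ x.out : (Matrix (Fin r) (Fin r) ℂ)ˣ)⁻¹ = DD lab (tt x.out) := by
        rw [h7, mul_assoc, mul_inv_cancel, mul_one]
      rw [Subgroup.coe_mul, Subgroup.coe_inv]
      calc (σ' x.out)⁻¹ * (DD lab (tt y.out) * (φφ y.out : (Matrix (Fin r) (Fin r) ℂ)ˣ))
          = (σ' x.out)⁻¹ * DD lab ((tt x.out)⁻¹ * tt y.out) * DD lab (tt x.out) *
              (φφ y.out : (Matrix (Fin r) (Fin r) ℂ)ˣ) := by
            rw [mul_assoc (σ' x.out)⁻¹ _ (DD lab (tt x.out)), ← map_mul,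
              mul_comm ((tt x.out)⁻¹ * tt y.out), mul_inv_cancel_left, mul_assoc]
        _ = _ := by
            rw [← h8]
            simp only [mul_assoc]
    have := QuotientGroup.eq.2 h4
    rwa [QuotientGroup.out_eq', QuotientGroup.out_eq'] at this
  have hfin : Finite (Γ ⧸ A) := Finite.of_injective _ hinj
  refine ⟨A, ?_, ?_, ?_⟩
  · rw [Subgroup.index]
    exact Nat.card_pos.ne'
  · rw [Subgroup.index]
    have h1 := Nat.card_le_card_of_injective _ hinj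
    rw [Nat.card_prod, Nat.card_eq_fintype_card (α := Equiv.Perm (Fin l)), Fintype.card_perm,
      Fintype.card_fin] at h1
    exact h1.trans (Nat.mul_le_mul (Nat.factorial_le hlr) hA1)
  · intro a ha b hb
    obtain ⟨ha, t, φ, hφ, h1⟩ := (hmemA a).1 ha
    obtain ⟨hb, t', φ', hφ', h2⟩ := (hmemA b).1 hb
    have h3 : σ' a * σ' b = σ' b * σ' a := by
      have e1 : σ' a * σ' b = DD lab (t * t') * (φ * φ') := by
        rw [h1, h2, mul_assoc, ← mul_assoc (φ : (Matrix (Fin r) (Fin r) ℂ)ˣ),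
          hcomm a t φ ha h1, map_mul]
        simp only [mul_assoc]
      have e2 : σ' b * σ' a = DD lab (t' * t) * (φ' * φ) := by
        rw [h1, h2, mul_assoc, ← mul_assoc (φ' : (Matrix (Fin r) (Fin r) ℂ)ˣ),
          hcomm b t' φ' hb h2, map_mul]
        simp only [mul_assoc]
      rw [e1, e2, hAc φ hφ φ' hφ', mul_comm t t']
    have h4 : σ a * σ b = σ b * σ a := by
      have := congrArg (fun U : (Matrix (Fin r) (Fin r) ℂ)ˣ => (U : Matrix (Fin r) (Fin r) ℂ)) h3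
      simpa only [Units.val_mul, hσ'] using this
    have h5 : ∀ x y : Γ, P * σ x * Q * (P * σ y * Q) = P * (σ x * σ y) * Q := fun x y => by
      calc P * σ x * Q * (P * σ y * Q) = P * σ x * (Q * P) * σ y * Q := by
            simp only [Matrix.mul_assoc]
        _ = _ := by rw [hQP]; simp only [Matrix.mul_assoc, Matrix.one_mul]
    rw [hσρ a, hσρ b, h5, h5, h4]

end Vale.Agent.P002.H326J
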