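import Vale.Agent.P002.H326J.J5

/-!
# Subgroups of bounded index of a finitely generated free group
-/

namespace Vale.Agent.P002.H326J

open Module Matrix

theorem exists_delta (ι : Type) [Finite ι] (J : ℕ) : ∃ Δ : Subgroup (FreeGroup ι),
    Δ.Normal ∧ Δ.FiniteIndex ∧ ∀ A : Subgroup (FreeGroup ι), A.index ≠ 0 → A.index ≤ J → Δ ≤ A := by
  classical
  have hfin : ∀ n : Fin (J + 1), Finite (FreeGroup ι →* Equiv.Perm (Fin n)) := fun n =>
    Finite.of_equiv _ (FreeGroup.lift (α := ι) (β := Equiv.Perm (Fin n)))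
  let F : FreeGroup ι →* (∀ p : (n : Fin (J + 1)) × (FreeGroup ι →* Equiv.Perm (Fin n)),
      Equiv.Perm (Fin p.1)) := Pi.monoidHom fun p => p.2
  refine ⟨F.ker, inferInstance, inferInstance, fun A h0 hJ g hg => ?_⟩
  have hcard : Nat.card (FreeGroup ι ⧸ A) = A.index := rfl
  have hf : Finite (FreeGroup ι ⧸ A) := Nat.finite_of_card_ne_zero h0
  let e : (FreeGroup ι ⧸ A) ≃ Fin A.index := Finite.equivFinOfCardEq hcard
  let f : FreeGroup ι →* Equiv.Perm (Fin A.index) :=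
    e.permCongrHom.toMonoidHom.comp (MulAction.toPermHom (FreeGroup ι) (FreeGroup ι ⧸ A))
  have h1 : f g = 1 := by
    have h2 := congrFun ((MonoidHom.mem_ker).1 hg) ⟨⟨A.index, by omega⟩, f⟩
    exact h2
  have h2 : MulAction.toPermHom (FreeGroup ι) (FreeGroup ι ⧸ A) g = 1 :=
    e.permCongrHom.injective (by rw [map_one]; exact h1)
  have h3 := congrArg (fun σ : Equiv.Perm (FreeGroup ι ⧸ A) => σ ((1 : FreeGroup ι) : FreeGroup ι ⧸ A)) h2
  have h4 : ((g * 1 : FreeGroup ι) : FreeGroup ι ⧸ A) = ((1 : FreeGroup ι) : FreeGroup ι ⧸ A) := h3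
  rw [QuotientGroup.eq] at h4
  simpa using h4

end Vale.Agent.P002.H326J
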