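import Vale.Agent.P002.H326J.J6

/-!
# Strongly irreducible solvable linear groups are scalar
-/

namespace Vale.Agent.P002.H326J

open Module Matrix Vale.Agent.P002.H306 commutatorElement

variable {Γ : Type*} [Group Γ] {d : ℕ}

/-- strong irreducibility -/
def SIrr (σ : Γ →* Matrix (Fin d) (Fin d) ℂ) : Prop :=
  ∀ S : Subgroup Γ, S.FiniteIndex → ∀ W : Submodule ℂ (Fin d → ℂ),
    (∀ g ∈ S, ∀ v ∈ W, σ g *ᵥ v ∈ W) → W = ⊥ ∨ W = ⊤

theorem scalar_of_zero (B : Matrix (Fin 0) (Fin 0) ℂ) : ∃ c : ℂ, B = c • 1 :=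
  ⟨0, by ext i; exact i.elim0⟩

theorem schur {σ : Γ →* Matrix (Fin d) (Fin d) ℂ} (hσ : SIrr σ) (S : Subgroup Γ)
    (hS : S.FiniteIndex) (B : Matrix (Fin d) (Fin d) ℂ) (hB : ∀ g ∈ S, σ g * B = B * σ g) :
    ∃ c : ℂ, B = c • 1 := by
  rcases Nat.eq_zero_or_pos d with hd | hd
  · subst hd
    exact scalar_of_zero B
  · have : Nonempty (Fin d) := ⟨⟨0, hd⟩⟩
    obtain ⟨c, hc⟩ := Module.End.exists_eigenvalue (mulVecLin B : Module.End ℂ (Fin d → ℂ))
    have h1 := hσ S hS (Module.End.eigenspace (mulVecLin B) c) (by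
      intro g hg v hv
      rw [Module.End.mem_eigenspace_iff, mulVecLin_apply] at hv ⊢
      rw [mulVec_mulVec, ← hB g hg, ← mulVec_mulVec, hv, mulVec_smul])
    rcases h1 with h1 | h1
    · exact absurd h1 hc
    · refine ⟨c, ?_⟩
      refine Matrix.mulVec_injective ?_
      funext v
      have h2 : v ∈ Module.End.eigenspace (mulVecLin B : Module.End ℂ (Fin d → ℂ)) c := by
        rw [h1]; trivial
      rw [Module.End.mem_eigenspace_iff, mulVecLin_apply] at h2
      rw [h2, smul_mulVec, one_mulVec]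

theorem SIrr.ssi {σ : Γ →* Matrix (Fin d) (Fin d) ℂ} (hσ : SIrr σ) : Ssi σ := by
  intro W hW
  rcases hσ ⊤ inferInstance W (fun g _ => hW g) with h | h
  · refine ⟨⊤, fun g v _ => trivial, ?_⟩
    rw [h]
    exact isCompl_bot_top
  · refine ⟨⊥, fun g v hv => ?_, ?_⟩
    · rw [Submodule.mem_bot] at hv ⊢
      rw [hv, mulVec_zero]
    · rw [h]
      exact isCompl_top_bot

theorem scalar_of_abel {σ : Γ →* Matrix (Fin d) (Fin d) ℂ} (hσ : SIrr σ) (N : Subgroup Γ)
    [N.Normal] (hN : ∀ a ∈ N, ∀ b ∈ N, σ a * σ b = σ b * σ a) :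
    ∀ n ∈ N, ∃ c : ℂ, σ n = c • 1 := by
  classical
  obtain ⟨P, Q, hPQ, hQP, hdiag⟩ := exists_diag σ hσ.ssi N hN
  let τ : Γ →* Matrix (Fin d) (Fin d) ℂ :=
    { toFun := fun g => Q * σ g * P
      map_one' := by rw [map_one, mul_one, hQP]
      map_mul' := fun g h => by
        rw [map_mul]
        calc Q * (σ g * σ h) * P = Q * σ g * 1 * σ h * P := by
              simp only [Matrix.mul_assoc, Matrix.one_mul]
          _ = Q * σ g * (P * Q) * σ h * P := by rw [hPQ]
          _ = _ := by simp only [Matrix.mul_assoc] }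
  have hτσ : ∀ g, σ g = P * τ g * Q := fun g => by
    change σ g = P * (Q * σ g * P) * Q
    calc σ g = 1 * σ g * 1 := by rw [Matrix.one_mul, Matrix.mul_one]
      _ = (P * Q) * σ g * (P * Q) := by rw [hPQ]
      _ = _ := by simp only [Matrix.mul_assoc]
  have hτv : ∀ g v, Q *ᵥ (σ g *ᵥ v) = τ g *ᵥ (Q *ᵥ v) := by
    intro g v
    rw [mulVec_mulVec, mulVec_mulVec]
    congr 1
    change Q * σ g = Q * σ g * P * Q
    rw [Matrix.mul_assoc (Q * σ g), hPQ, Matrix.mul_one]
  obtain ⟨l, lab, α, -, hlab, hlabα, hu⟩ := exists_labels τ N (fun h hh => hdiag h hh)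
  have hconst : ∀ i j, lab i = lab j := by
    by_contra hcon
    push Not at hcon
    obtain ⟨i1, i0, h10⟩ := hcon
    let W : Submodule ℂ (Fin d → ℂ) :=
      { carrier := {v | ∀ i, lab i ≠ lab i0 → (Q *ᵥ v) i = 0}
        add_mem' := fun {a b} ha hb i hi => by
          rw [mulVec_add, Pi.add_apply, ha i hi, hb i hi, add_zero]
        zero_mem' := fun i _ => by rw [mulVec_zero]; rfl
        smul_mem' := fun c v hv i hi => by
          rw [mulVec_smul, Pi.smul_apply, hv i hi, smul_zero] }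
    have hWm : ∀ v, v ∈ W ↔ ∀ i, lab i ≠ lab i0 → (Q *ᵥ v) i = 0 := fun _ => Iff.rfl
    have hQPv : ∀ v, Q *ᵥ (P *ᵥ v) = v := fun v => by rw [mulVec_mulVec, hQP, one_mulVec]
    rcases hσ α.ker inferInstance W (by
      intro g hg v hv i hi
      rw [hτv, mulVec, dotProduct]
      refine Finset.sum_eq_zero fun j _ => ?_
      by_cases h0 : τ g i j = 0
      · rw [h0, zero_mul]
      · have h1 := hlabα g i j h0
        rw [MonoidHom.mem_ker.1 hg] at h1
        have h2 : lab j ≠ lab i0 := by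
          intro h3
          exact hi (h1.trans h3)
        rw [hv j h2, mul_zero]) with h | h
    · have h1 : P *ᵥ (Pi.single i0 1) ∈ W := by
        intro i hi
        rw [hQPv]
        exact Pi.single_eq_of_ne (fun h => hi (by rw [h])) _
      rw [h, Submodule.mem_bot] at h1
      have h2 := hQPv (Pi.single i0 1)
      rw [h1, mulVec_zero] at h2
      have h3 := congrFun h2 i0
      simp at h3
    · have h1 : P *ᵥ (Pi.single i1 1) ∈ W := by rw [h]; trivial
      have h2 := h1 i1 h10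
      rw [hQPv] at h2
      simp at h2
  intro n hn
  obtain ⟨u, hu⟩ := hu n hn
  rcases Nat.eq_zero_or_pos d with hd | hd
  · subst hd
    exact scalar_of_zero _
  · refine ⟨u (lab ⟨0, hd⟩), ?_⟩
    rw [hτσ, hu]
    have h1 : diagonal (u ∘ lab) = u (lab ⟨0, hd⟩) • (1 : Matrix (Fin d) (Fin d) ℂ) := by
      ext i j
      rw [Matrix.smul_apply, one_apply, diagonal_apply]
      by_cases hij : i = j
      · rw [if_pos hij, if_pos hij, smul_eq_mul, mul_one, Function.comp_apply,
          hconst i ⟨0, hd⟩]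
      · rw [if_neg hij, if_neg hij, smul_zero]
    rw [h1, mul_smul_comm, smul_mul_assoc, mul_one, hPQ]

theorem sig_inv_mul (σ : Γ →* Matrix (Fin d) (Fin d) ℂ) (g : Γ) : σ g⁻¹ * σ g = 1 := by
  rw [← map_mul, inv_mul_cancel, map_one]

theorem sig_mul_inv (σ : Γ →* Matrix (Fin d) (Fin d) ℂ) (g : Γ) : σ g * σ g⁻¹ = 1 := by
  rw [← map_mul, mul_inv_cancel, map_one]

theorem det_ne (σ : Γ →* Matrix (Fin d) (Fin d) ℂ) (g : Γ) : (σ g).det ≠ 0 := by
  intro h
  have := congrArg Matrix.det (sig_mul_inv σ g)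
  rw [det_mul, h, zero_mul, det_one] at this
  exact zero_ne_one this

/-- a normal subgroup which commutes up to scalars acts by scalars -/
theorem scalar_of_comm {σ : Γ →* Matrix (Fin d) (Fin d) ℂ} (hσ : SIrr σ) (B : Subgroup Γ)
    [hBn : B.Normal] (hB : ∀ a ∈ B, ∀ b ∈ B, ∃ c : ℂ, σ a * σ b = c • (σ b * σ a)) :
    ∀ b ∈ B, ∃ c : ℂ, σ b = c • 1 := by
  classical
  rcases Nat.eq_zero_or_pos d with hd | hd
  · subst hd
    exact fun b _ => scalar_of_zero _
  have hne1 : (1 : Matrix (Fin d) (Fin d) ℂ) ≠ 0 := by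
    intro h
    have := congrFun (congrFun h ⟨0, hd⟩) ⟨0, hd⟩
    simp at this
  have hne : ∀ g, σ g ≠ 0 := fun g h => by
    have := sig_mul_inv σ g
    rw [h, zero_mul] at this
    exact hne1 this.symm
  -- the centre of `B`
  let Z : Subgroup Γ :=
    { carrier := {z | z ∈ B ∧ ∀ b ∈ B, σ z * σ b = σ b * σ z}
      one_mem' := ⟨B.one_mem, fun b _ => by rw [map_one, one_mul, mul_one]⟩
      mul_mem' := by
        rintro x y ⟨hx, hx'⟩ ⟨hy, hy'⟩
        refine ⟨B.mul_mem hx hy, fun b hb => ?_⟩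
        rw [map_mul, mul_assoc, hy' b hb, ← mul_assoc, hx' b hb, mul_assoc]
      inv_mem' := by
        rintro x ⟨hx, hx'⟩
        refine ⟨B.inv_mem hx, fun b hb => ?_⟩
        calc σ x⁻¹ * σ b = σ x⁻¹ * (σ b * σ x) * σ x⁻¹ := by
              rw [mul_assoc, mul_assoc, sig_mul_inv, mul_one]
          _ = σ x⁻¹ * (σ x * σ b) * σ x⁻¹ := by rw [hx' b hb]
          _ = σ b * σ x⁻¹ := by rw [← mul_assoc, sig_inv_mul, one_mul] }
  have hZm : ∀ z, z ∈ Z ↔ z ∈ B ∧ ∀ b ∈ B, σ z * σ b = σ b * σ z := fun _ => Iff.rfl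
  have hZn : Z.Normal := ⟨by
    intro z hz g
    rw [hZm] at hz ⊢
    refine ⟨hBn.conj_mem z hz.1 g, fun b hb => ?_⟩
    have h1 := hz.2 (g⁻¹ * b * g) (by simpa using hBn.conj_mem b hb g⁻¹)
    have h2 := congrArg (fun M => σ g * M * σ g⁻¹) h1
    simp only [← map_mul] at h2 ⊢
    have e1 : g * (z * (g⁻¹ * b * g)) * g⁻¹ = g * z * g⁻¹ * b := by group
    have e2 : g * (g⁻¹ * b * g * z) * g⁻¹ = b * (g * z * g⁻¹) := by group
    rwa [e1, e2] at h2⟩
  have hZs := scalar_of_abel hσ Z (fun a ha b hb => ((hZm a).1 ha).2 b ((hZm b).1 hb).1)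
  -- a maximal linearly independent subset of `σ(B)`
  obtain ⟨T, hTB, hTs, hTl⟩ := exists_linearIndependent ℂ (σ '' (B : Set Γ))
  have hTfin : T.Finite := hTl.setFinite
  have key : ∀ b ∈ B, ∃ t ∈ T, ∃ c : ℂ, σ b = c • t := by
    intro b hb
    have h1 : σ b ∈ Submodule.span ℂ (Set.range ((↑) : T → Matrix (Fin d) (Fin d) ℂ)) := by
      rw [Subtype.range_coe, hTs]
      exact Submodule.subset_span ⟨b, hb, rfl⟩
    obtain ⟨c, hc⟩ := (Finsupp.mem_span_range_iff_exists_finsupp).1 h1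
    have hc0 : c ≠ 0 := by
      rintro rfl
      rw [Finsupp.sum_zero_index] at hc
      exact hne b hc.symm
    obtain ⟨t0, ht0⟩ := Finsupp.ne_iff.1 hc0
    rw [Finsupp.zero_apply] at ht0
    obtain ⟨b0, hb0, hbt⟩ := hTB t0.2
    refine ⟨t0, t0.2, ?_⟩
    have hcomm : ∀ a ∈ B, ∀ l : ℂ, σ a * σ b = l • (σ b * σ a) →
        σ a * σ b0 = l • (σ b0 * σ a) := by
      intro a ha l hl
      have hT : ∀ t : T, ∃ m : ℂ, σ a * t = m • ((t : Matrix (Fin d) (Fin d) ℂ) * σ a) := by
        intro t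
        obtain ⟨b1, hb1, hbt1⟩ := hTB t.2
        rw [← hbt1]
        exact hB a ha b1 hb1
      choose m hm using hT
      have h2 : (c.sum fun t x => ((m t - l) * x) • (t : Matrix (Fin d) (Fin d) ℂ)) = 0 := by
        have h3 : (c.sum fun t x => ((m t - l) * x) • (t : Matrix (Fin d) (Fin d) ℂ)) * σ a =
            σ a * σ b - l • (σ b * σ a) := by
          rw [← hc, Finsupp.sum, Finsupp.sum, Finset.sum_mul, Finset.mul_sum, Finset.sum_mul,
            Finset.smul_sum, ← Finset.sum_sub_distrib]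
          refine Finset.sum_congr rfl fun t _ => ?_
          rw [mul_smul_comm, hm, smul_mul_assoc, smul_mul_assoc, smul_smul, smul_smul, ← sub_smul]
          congr 1
          ring
        rw [hl, sub_self] at h3
        have h4 := congrArg (fun M => M * σ a⁻¹) h3
        simp only [zero_mul] at h4
        rwa [mul_assoc, sig_mul_inv, mul_one] at h4
      have h5 := (linearIndependent_iff.1 hTl) (c.sum
        fun t x => Finsupp.single t ((m t - l) * x)) (by
          rw [map_finsuppSum]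
          simp only [Finsupp.linearCombination_single]
          exact h2)
      have h6 := congrArg (fun f : T →₀ ℂ => f t0) h5
      simp only [Finsupp.zero_apply] at h6
      have h7 : (c.sum
          fun t x => Finsupp.single t ((m t - l) * x)) t0 = (m t0 - l) * c t0 := by
        rw [Finsupp.sum_apply, Finsupp.sum_eq_single t0]
        · simp
        · intro t _ ht
          exact Finsupp.single_eq_of_ne ht.symm
        · intro _
          simp
      rw [h7] at h6
      have h8 : m t0 = l := by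
        rcases mul_eq_zero.1 h6 with h | h
        · exact sub_eq_zero.1 h
        · exact absurd h ht0
      rw [hbt, hm, h8]
    have hz : b * b0⁻¹ ∈ Z := by
      rw [hZm]
      refine ⟨B.mul_mem hb (B.inv_mem hb0), fun a ha => ?_⟩
      obtain ⟨l, hl⟩ := hB a ha b hb
      have h2 := hcomm a ha l hl
      have h3 : σ a = l • (σ b0 * σ a * σ b0⁻¹) := by
        have := congrArg (fun M => M * σ b0⁻¹) h2
        simp only [smul_mul_assoc] at this
        rwa [mul_assoc, sig_mul_inv, mul_one] at this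
      calc σ (b * b0⁻¹) * σ a = l • (σ b * (σ b0⁻¹ * σ b0) * σ a * σ b0⁻¹) := by
            rw [map_mul]
            nth_rewrite 1 [h3]
            rw [mul_smul_comm]
            simp only [mul_assoc]
        _ = (l • (σ b * σ a)) * σ b0⁻¹ := by
            rw [sig_inv_mul, mul_one, smul_mul_assoc]
        _ = σ a * σ (b * b0⁻¹) := by rw [← hl, map_mul, mul_assoc]
    obtain ⟨x, hx⟩ := hZs _ hz
    refine ⟨x, ?_⟩
    rw [← hbt]
    have : σ b = σ (b * b0⁻¹) * σ b0 := by rw [← map_mul, inv_mul_cancel_right]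
    rw [this, hx, smul_mul_assoc, one_mul]
  -- the centralizer has finite index
  let S : Subgroup Γ :=
    { carrier := {g | ∀ b ∈ B, σ g * σ b = σ b * σ g}
      one_mem' := fun b _ => by rw [map_one, one_mul, mul_one]
      mul_mem' := by
        intro x y hx hy b hb
        rw [map_mul, mul_assoc, hy b hb, ← mul_assoc, hx b hb, mul_assoc]
      inv_mem' := by
        intro x hx b hb
        calc σ x⁻¹ * σ b = σ x⁻¹ * (σ b * σ x) * σ x⁻¹ := by
              rw [mul_assoc, mul_assoc, sig_mul_inv, mul_one]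
          _ = σ x⁻¹ * (σ x * σ b) * σ x⁻¹ := by rw [hx b hb]
          _ = σ b * σ x⁻¹ := by rw [← mul_assoc, sig_inv_mul, one_mul] }
  have hSm : ∀ g, g ∈ S ↔ ∀ b ∈ B, σ g * σ b = σ b * σ g := fun _ => Iff.rfl
  have hSfin : S.FiniteIndex := by
    have hF : (⋃ t ∈ T, ⋃ t' ∈ T, (fun c : ℂ => c • t') ''
        {c : ℂ | c ^ d = t.det * (t'.det)⁻¹}).Finite := by
      refine hTfin.biUnion fun t _ => hTfin.biUnion fun t' _ => Set.Finite.image _ ?_
      refine (Multiset.finite_toSet (Polynomial.nthRoots d (t.det * (t'.det)⁻¹))).subset ?_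
      intro z hz
      exact (Polynomial.mem_nthRoots hd).2 hz
    have hTf : Finite T := hTfin
    have hFf := hF.to_subtype
    have hmem : ∀ (g : Γ) (t : T), σ g * t * σ g⁻¹ ∈ ⋃ t ∈ T, ⋃ t' ∈ T, (fun c : ℂ => c • t') ''
        {c : ℂ | c ^ d = t.det * (t'.det)⁻¹} := by
      intro g t
      obtain ⟨b, hb, hbt⟩ := hTB t.2
      obtain ⟨t', ht', c, hc⟩ := key (g * b * g⁻¹) (hBn.conj_mem b hb g)
      have h1 : σ g * (t : Matrix (Fin d) (Fin d) ℂ) * σ g⁻¹ = c • t' := by
        rw [← hbt, ← hc, map_mul, map_mul]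
      simp only [Set.mem_iUnion]
      refine ⟨t, t.2, t', ht', c, ?_, h1.symm⟩
      obtain ⟨b', -, hbt'⟩ := hTB ht'
      have h2 : t'.det ≠ 0 := by rw [← hbt']; exact det_ne σ b'
      have h3 := congrArg Matrix.det h1
      rw [det_smul, Fintype.card_fin, det_mul, det_mul, mul_right_comm, ← det_mul, sig_mul_inv,
        det_one, one_mul] at h3
      change c ^ d = _
      rw [h3, mul_assoc, mul_inv_cancel₀ h2, mul_one]
    let f : Γ ⧸ S → (T → (⋃ t ∈ T, ⋃ t' ∈ T, (fun c : ℂ => c • t') ''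
        {c : ℂ | c ^ d = t.det * (t'.det)⁻¹} : Set (Matrix (Fin d) (Fin d) ℂ))) :=
      fun x t => ⟨σ x.out * t * σ x.out⁻¹, hmem _ _⟩
    have hf : Function.Injective f := by
      intro x y hxy
      have h1 : x.out⁻¹ * y.out ∈ S := by
        rw [hSm]
        intro b hb
        obtain ⟨t, ht, c, hc⟩ := key b hb
        have h2 : σ x.out * t * σ x.out⁻¹ = σ y.out * t * σ y.out⁻¹ :=
          congrArg Subtype.val (congrFun hxy ⟨t, ht⟩)
        have h3 : σ (x.out⁻¹ * y.out) * t = t * σ (x.out⁻¹ * y.out) := by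
          have h4 := congrArg (fun M => σ x.out⁻¹ * M * σ y.out) h2
          calc σ (x.out⁻¹ * y.out) * t = σ x.out⁻¹ * (σ y.out * t * σ y.out⁻¹) * σ y.out := by
                rw [map_mul]
                simp only [mul_assoc, sig_inv_mul, mul_one]
            _ = σ x.out⁻¹ * (σ x.out * t * σ x.out⁻¹) * σ y.out := h4.symm
            _ = (σ x.out⁻¹ * σ x.out) * t * σ x.out⁻¹ * σ y.out := by simp only [mul_assoc]
            _ = t * σ (x.out⁻¹ * y.out) := by
                rw [sig_inv_mul, one_mul, map_mul, mul_assoc]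
        rw [hc, mul_smul_comm, smul_mul_assoc, h3]
      have := QuotientGroup.eq.2 h1
      rwa [QuotientGroup.out_eq', QuotientGroup.out_eq'] at this
    have : Finite (Γ ⧸ S) := Finite.of_injective f hf
    exact Subgroup.finiteIndex_of_finite_quotient
  exact fun b hb => schur hσ S hSfin (σ b) (fun g hg => (hSm g).1 hg b hb)

/-- strongly irreducible and solvable implies scalar -/
theorem scalar_of_solvable {σ : Γ →* Matrix (Fin d) (Fin d) ℂ} (hσ : SIrr σ) (n : ℕ)
    (h : ∀ g ∈ derivedSeries Γ n, ∃ c : ℂ, σ g = c • 1) : ∀ g, ∃ c : ℂ, σ g = c • 1 := by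
  induction n with
  | zero => exact fun g => h g (by rw [derivedSeries_zero]; trivial)
  | succ n ih =>
    refine ih (scalar_of_comm hσ _ fun a ha b hb => ?_)
    obtain ⟨c, hc⟩ := h ⁅a, b⁆ (by
      rw [derivedSeries_succ]
      exact Subgroup.commutator_mem_commutator ha hb)
    refine ⟨c, ?_⟩
    have h1 : σ a * σ b = σ ⁅a, b⁆ * (σ b * σ a) := by
      rw [← map_mul, ← map_mul, ← map_mul]
      congr 1
      rw [commutatorElement_def]
      group
    rw [h1, hc, smul_mul_assoc, one_mul]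

end Vale.Agent.P002.H326J
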